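import Vale.Agent.P067.Alg.SSet

/-!
# P067: the full simplex on a group and its orbit complex, which computes group homology
-/

namespace Vale.Agent.P067

namespace SSet

variable (S : SSet)

/-- `z` is a cycle. -/
def IsCycle : (q : ℕ) → S.Ch q → Prop
  | 0, z => S.aug z = 0
  | q + 1, z => S.bd q z = 0

/-- The boundaries in degree `q`. -/
noncomputable def bdry (q : ℕ) : Submodule (ZMod 2) (S.Ch q) := LinearMap.range (S.bd q)

lemma exact_iff (q : ℕ) : S.Exact q ↔ ∀ z, S.IsCycle q z → z ∈ S.bdry q := by
  cases q <;> rfl

lemma bd_mem (q : ℕ) (w : S.Ch (q + 1)) : S.bd q w ∈ S.bdry q := LinearMap.mem_range_self _ _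

end SSet

/-- Every finite subset lies in a finite subgroup of odd order. -/
def LocOdd (G : Type) [Group G] : Prop :=
  ∀ s : Finset G, ∃ H : Subgroup G, (∀ g ∈ s, g ∈ H) ∧ Finite H ∧ Odd (Nat.card H)

lemma LocOdd.of_finite {G : Type} [Group G] [Finite G] (h : Odd (Nat.card G)) : LocOdd G :=
  fun _ => ⟨⊤, fun _ _ => trivial, inferInstance, by rwa [Subgroup.card_top]⟩

variable (G : Type) [Group G]

/-- The full simplex on a group, as ordered tuples, with the translation action. -/
def simplexE : GSSet G where
  obj q := Fin (q + 1) → G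
  face _ i s := s ∘ i.succAbove
  face_face q i j h s := by
    funext k
    simp only [Function.comp_apply]
    congr 1
    ext
    simp only [Fin.succAbove, Fin.lt_def, Fin.le_def, Fin.val_castSucc, Fin.val_succ, apply_ite Fin.val] at *
    split_ifs <;> (try simp only [Fin.val_succ, Fin.val_castSucc] at *) <;> omega
  act q :=
    { toFun := fun g => Equiv.piCongrRight fun _ => Equiv.mulLeft g
      map_one' := by ext s k; simp
      map_mul' := fun g h => by ext s k; simp [mul_assoc] }
  act_face _ _ _ _ := rfl

/-- The orbit complex of the full simplex: its homology is the homology of the group. -/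
abbrev GH : SSet := (simplexE G).quot

variable {G}
variable {H K : Type} [Group H] [Group K]

/-- A homomorphism acts on tuples. -/
def tupleHom (φ : H →* K) : SSet.Hom (simplexE H).toSSet (simplexE K).toSSet where
  app _ s := φ ∘ s
  comm _ _ _ := rfl

/-- The map induced by a homomorphism. -/
def hmap (φ : H →* K) : SSet.Hom (GH H) (GH K) where
  app q := Quotient.map' ((tupleHom φ).app q) (by
    rintro a b ⟨g, rfl⟩
    exact ⟨φ g, funext fun k => (map_mul φ g (a k)).symm⟩)
  comm q i := by
    rintro ⟨s⟩
    rfl

namespace GSSet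

variable (S : GSSet G)

/-- Restriction of the action along a homomorphism. -/
abbrev res (φ : H →* G) : GSSet H where
  toSSet := S.toSSet
  act q := (S.act q).comp φ
  act_face q i h := S.act_face q i (φ h)

/-- The stabiliser of a simplex. -/
def stab (q : ℕ) (s : S.obj q) : Subgroup G where
  carrier := {g | S.act q g s = s}
  one_mem' := by simp
  mul_mem' {a b} ha hb := by
    simp only [Set.mem_ofPred_eq, map_mul, Equiv.Perm.mul_apply] at *
    rw [hb, ha]
  inv_mem' {a} ha := by
    simp only [Set.mem_ofPred_eq, map_inv] at *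
    rw [Equiv.Perm.inv_eq_iff_eq]
    exact ha.symm

/-- The sums of the images of cycles of the stabilisers of vertices. -/
noncomputable def vertexPart (i : ℕ) : Submodule (ZMod 2) ((GH G).Ch i) :=
  Submodule.span (ZMod 2) {z | ∃ (w : S.obj 0) (c : (GH (S.stab 0 w)).Ch i),
    (GH (S.stab 0 w)).IsCycle i c ∧ z = (hmap (S.stab 0 w).subtype).chain i c}

end GSSet

end Vale.Agent.P067
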