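import Vale.Agent.P067.Alg.GroupHom

/-!
# P067: a kernel of odd order does not matter modulo two
-/

namespace Vale.Agent.P067

open Finset

variable {K : Type} [Group K] (W : GSSet K)

/-- Maps out of the full simplex that respect the action. -/
def Equivariant (F : SSet.Hom (simplexE K).toSSet W.toSSet) : Prop :=
  ∀ q k s, F.app q ((simplexE K).act q k s) = W.act q k (F.app q s)

variable {W} {F F' : SSet.Hom (simplexE K).toSSet W.toSSet}

lemma Equivariant.chain_tr (hF : Equivariant W F) (q : ℕ) (k : K) (x : (simplexE K).Ch q) :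
    F.chain q ((simplexE K).tr q k x) = W.tr q k (F.chain q x) := by
  induction x using Finsupp.induction_linear with
  | zero => simp
  | add a b ha hb => simp [ha, hb]
  | single s c => rw [GSSet.tr_single, SSet.Hom.chain_single, SSet.Hom.chain_single, GSSet.tr_single, hF]

/-- The tuple translated so that it starts at the identity. -/
def norm0 {q : ℕ} (s : (simplexE K).obj q) : (simplexE K).obj q :=
  (simplexE K).act q (s (0 : Fin (q + 1)))⁻¹ s

lemma norm0_spec {q : ℕ} (s : (simplexE K).obj q) :
    (simplexE K).act q (s (0 : Fin (q + 1))) (norm0 s) = s := by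
  simp [norm0]

/-- A linear map given by values on normalised tuples, extended by the action. -/
noncomputable def extend0 (q : ℕ) (c : (simplexE K).obj q → W.Ch (q + 1)) :
    (simplexE K).Ch q →ₗ[ZMod 2] W.Ch (q + 1) :=
  Finsupp.linearCombination (ZMod 2) fun s => W.tr (q + 1) (s (0 : Fin (q + 1))) (c (norm0 s))

lemma extend0_tr (q : ℕ) (c : (simplexE K).obj q → W.Ch (q + 1)) (k : K) (x : (simplexE K).Ch q) :
    extend0 q c ((simplexE K).tr q k x) = W.tr (q + 1) k (extend0 q c x) := by
  induction x using Finsupp.induction_linear with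
  | zero => simp
  | add a b ha hb => simp [ha, hb]
  | single s d =>
    rw [GSSet.tr_single]
    simp only [extend0, Finsupp.linearCombination_single, map_smul]
    congr 1
    have e : norm0 ((simplexE K).act q k s) = norm0 s := by
      funext i
      show (k * s 0)⁻¹ * (k * s i) = (s 0)⁻¹ * s i
      group
    rw [e]
    show W.tr (q + 1) (k * s (0 : Fin (q + 1))) _ = _
    generalize c (norm0 s) = y
    induction y using Finsupp.induction_linear with
    | zero => simp
    | add a b ha hb => simp [ha, hb]
    | single t b => simp [GSSet.tr_single, map_mul]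

/-- Solving `bd h = R` equivariantly. -/
lemma solve (hW : ∀ q, W.Exact q) (q : ℕ) (R : (simplexE K).Ch q →ₗ[ZMod 2] W.Ch q)
    (hR : ∀ k x, R ((simplexE K).tr q k x) = W.tr q k (R x))
    (hcyc : ∀ s, W.IsCycle q (R (Finsupp.single s 1))) :
    ∃ h : (simplexE K).Ch q →ₗ[ZMod 2] W.Ch (q + 1),
      (∀ k x, h ((simplexE K).tr q k x) = W.tr (q + 1) k (h x)) ∧ ∀ x, W.bd q (h x) = R x := by
  have hex : ∀ s, ∃ w, W.bd q w = R (Finsupp.single s 1) := fun s =>
    ((W.toSSet.exact_iff q).1 (hW q)) _ (hcyc s)
  choose c hc using hex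
  refine ⟨extend0 q c, extend0_tr q c, fun x => ?_⟩
  induction x using Finsupp.induction_linear with
  | zero => simp
  | add a b ha hb => simp [ha, hb]
  | single s d =>
    rw [single_eq_smul, map_smul, map_smul, map_smul]
    congr 1
    simp only [extend0, Finsupp.linearCombination_single, one_smul]
    rw [← GSSet.tr_bd, hc, ← hR, GSSet.tr_single, norm0_spec]

/-- The homotopy between two equivariant maps to an acyclic target. -/
lemma exists_homotopy (hW : ∀ q, W.Exact q) (hF : Equivariant W F) (hF' : Equivariant W F') :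
    ∀ q, ∃ h : (simplexE K).Ch q →ₗ[ZMod 2] W.Ch (q + 1),
      (∀ k x, h ((simplexE K).tr q k x) = W.tr (q + 1) k (h x)) ∧
      ∀ x, (simplexE K).IsCycle q x → W.bd q (h x) = F.chain q x + F'.chain q x := by
  intro q
  induction q with
  | zero =>
    obtain ⟨h, h1, h2⟩ := solve hW 0 (F.chain 0 + F'.chain 0)
      (fun k x => by simp [hF.chain_tr, hF'.chain_tr])
      (fun s => by
        show W.aug (F.chain 0 _ + F'.chain 0 _) = 0
        rw [map_add, SSet.Hom.aug_chain, SSet.Hom.aug_chain, add_self_zero])
    exact ⟨h, h1, fun x _ => h2 x⟩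
  | succ q ih =>
    obtain ⟨h, h1, h2⟩ := ih
    have hb : ∀ x, W.bd q (h ((simplexE K).bd q x)) =
        F.chain q ((simplexE K).bd q x) + F'.chain q ((simplexE K).bd q x) :=
      fun x => h2 _ (SSet.isCycle_bd _ q x)
    obtain ⟨g, g1, g2⟩ := solve hW (q + 1)
      (F.chain (q + 1) + F'.chain (q + 1) + h.comp ((simplexE K).bd q))
      (fun k x => by simp [hF.chain_tr, hF'.chain_tr, ← GSSet.tr_bd, h1])
      (fun s => by
        show W.bd q (F.chain (q + 1) _ + F'.chain (q + 1) _ + h ((simplexE K).bd q _)) = 0
        rw [map_add, map_add, hb, ← SSet.Hom.chain_bd, ← SSet.Hom.chain_bd, add_self_zero])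
    refine ⟨g, g1, fun x hx => ?_⟩
    rw [g2]
    simp [show (simplexE K).bd q x = 0 from hx]

/-- Two equivariant maps to an acyclic target agree on the homology of the orbits. -/
theorem equivariant_homotopic (hW : ∀ q, W.Exact q) (hF : Equivariant W F)
    (hF' : Equivariant W F') (q : ℕ) (y : (simplexE K).Ch q)
    (hy : (GH K).IsCycle q ((simplexE K).proj.chain q y)) :
    W.proj.chain q (F.chain q y) + W.proj.chain q (F'.chain q y) ∈ W.quot.bdry q := by
  cases q with
  | zero =>
    obtain ⟨h, -, h2⟩ := exists_homotopy hW hF hF' 0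
    refine ⟨W.proj.chain 1 (h y), ?_⟩
    rw [← SSet.Hom.chain_bd, h2 y ?_, map_add]
    show (simplexE K).aug y = 0
    rw [← (simplexE K).proj.aug_chain]
    exact hy
  | succ q =>
    obtain ⟨h, h1, h2⟩ := exists_homotopy hW hF hF' q
    obtain ⟨g, -, g2⟩ := solve hW (q + 1)
      (F.chain (q + 1) + F'.chain (q + 1) + h.comp ((simplexE K).bd q))
      (fun k x => by simp [hF.chain_tr, hF'.chain_tr, ← GSSet.tr_bd, h1])
      (fun s => by
        show W.bd q (F.chain (q + 1) _ + F'.chain (q + 1) _ + h ((simplexE K).bd q _)) = 0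
        rw [map_add, map_add, h2 _ (SSet.isCycle_bd _ q _), ← SSet.Hom.chain_bd, ← SSet.Hom.chain_bd,
          add_self_zero])
    refine ⟨W.proj.chain (q + 2) (g y), ?_⟩
    rw [← SSet.Hom.chain_bd, g2]
    simp only [LinearMap.add_apply, LinearMap.comp_apply, map_add]
    have h0 : W.proj.chain (q + 1) (h ((simplexE K).bd q y)) =
        W.proj.chain (q + 1) (h ((simplexE K).liftCh q
          ((simplexE K).proj.chain q ((simplexE K).bd q y)))) := by
      generalize (simplexE K).bd q y = x
      induction x using Finsupp.induction_linear with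
      | zero => simp
      | add a b ha hb => simp only [map_add, ha, hb]
      | single s c =>
        rw [SSet.Hom.chain_single, GSSet.liftCh_single]
        obtain ⟨k, hk⟩ := Quotient.exact (s := (simplexE K).orbRel q)
          (Quotient.out_eq (Quotient.mk ((simplexE K).orbRel q) s)).symm
        have : Finsupp.single (Quotient.out (Quotient.mk ((simplexE K).orbRel q) s)) c =
            (simplexE K).tr q k (Finsupp.single s c) := by rw [GSSet.tr_single, hk]
        refine Eq.trans ?_ (congrArg (fun v => W.proj.chain (q + 1) (h v)) this.symm)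
        rw [h1, GSSet.proj_tr]
    rw [h0, (simplexE K).proj.chain_bd, show (GH K).bd q _ = 0 from hy]
    simp

section kernel

variable {H Q : Type} [Group H] [Group Q]

/-- Composed with a map whose kernel is locally odd, homomorphisms are determined on homology. -/
theorem hmap_eq_of_comp_eq (π : H →* Q) (hker : LocOdd π.ker) (φ ψ : K →* H)
    (h : π.comp φ = π.comp ψ) (q : ℕ) (z : (GH K).Ch q) (hz : (GH K).IsCycle q z) :
    (hmap φ).chain q z + (hmap ψ).chain q z ∈ (GH H).bdry q := by
  let W : GSSet K := ((simplexE H).quotN π.ker).res φ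
  have hW : ∀ q, W.Exact q := fun q =>
    ((simplexE H).res π.ker.subtype).exact_quot_of_locOdd hker (simplexE_exact q)
  let F : SSet.Hom (simplexE K).toSSet W.toSSet :=
    ((simplexE H).res π.ker.subtype).proj.comp (vmap φ)
  let F' : SSet.Hom (simplexE K).toSSet W.toSSet :=
    ((simplexE H).res π.ker.subtype).proj.comp (vmap ψ)
  have hF : Equivariant W F := fun q k s => Quotient.sound ⟨1, funext fun i => by
    show (1 : H) * φ (k * s i) = φ k * φ (s i)
    rw [map_mul, one_mul]⟩
  have hF' : Equivariant W F' := fun q k s => Quotient.sound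
    ⟨⟨φ k * (ψ k)⁻¹, by
      rw [MonoidHom.mem_ker, map_mul, map_inv, show π (φ k) = π (ψ k) from DFunLike.congr_fun h k,
        mul_inv_cancel]⟩, funext fun i => by
      show φ k * (ψ k)⁻¹ * ψ (k * s i) = φ k * ψ (s i)
      rw [map_mul]
      group⟩
  let P : SSet.Hom W.quot (GH H) :=
    { app := fun q x => Quotient.liftOn' x (fun y => ((simplexE H).toQuot π.ker).app q y) (by
        rintro a b ⟨k, rfl⟩
        exact ((simplexE H).toQuot_act π.ker q (φ k) a).symm)
      comm := fun q i x => by
        induction x using Quotient.inductionOn' with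
        | h s => exact ((simplexE H).toQuot π.ker).comm q i s }
  have hy := GSSet.proj_liftCh (simplexE K) q z
  have key := P.mem_bdry (equivariant_homotopic hW hF hF' q ((simplexE K).liftCh q z)
    (by rw [hy]; exact hz))
  rw [map_add, SSet.Hom.chain_comp, SSet.Hom.chain_comp, SSet.Hom.chain_comp, SSet.Hom.chain_comp]
    at key
  rw [← hy, SSet.Hom.chain_comp, SSet.Hom.chain_comp]
  convert key using 2 <;> exact SSet.Hom.chain_congr (fun s => rfl) _

/-- A split surjection with locally odd kernel reflects the vanishing of homology. -/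
theorem exact_of_section (π : H →* Q) (hker : LocOdd π.ker) (σ : Q →* H)
    (hσ : π.comp σ = MonoidHom.id Q) {q : ℕ} (hQ : (GH Q).Exact q) : (GH H).Exact q := by
  rw [SSet.exact_iff] at hQ ⊢
  intro z hz
  have h1 := hmap_eq_of_comp_eq π hker (MonoidHom.id H) (σ.comp π)
    (by rw [← MonoidHom.comp_assoc, hσ, MonoidHom.id_comp, MonoidHom.comp_id]) q z hz
  rw [SSet.Hom.chain_id (f := hmap (MonoidHom.id H)) (fun s => by
    induction s using Quotient.inductionOn' with
    | h s => rfl) z] at h1
  refine SSet.mem_bdry_of_add h1 ?_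
  have h2 := (hmap σ).mem_bdry (hQ _ ((hmap π).isCycle hz))
  rw [SSet.Hom.chain_comp] at h2
  convert h2 using 1
  exact SSet.Hom.chain_congr (fun s => by
    induction s using Quotient.inductionOn' with
    | h s => rfl) z

end kernel

end Vale.Agent.P067
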