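import Vale.Agent.P067.Alg.Fibre

/-!
# P067: the double complex of two semisimplicial sets with an action, and the chase
-/

namespace Vale.Agent.P067

open Finset

variable {G : Type} [Group G]

/-- The diagonal action. -/
def pairAct {A B : Type} (a : G →* Equiv.Perm A) (b : G →* Equiv.Perm B) :
    G →* Equiv.Perm (A × B) where
  toFun g := (a g).prodCongr (b g)
  map_one' := by ext x <;> simp
  map_mul' g h := by ext x <;> simp

namespace Double

variable (S T : GSSet G)

/-- The column over the `p`-simplices of `T`. -/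
abbrev col (p : ℕ) : GSSet G where
  obj q := S.obj q × T.obj p
  face q i x := (S.face q i x.1, x.2)
  face_face q i j h x := Prod.ext (S.face_face q i j h x.1) rfl
  act q := pairAct (S.act q) (T.act p)
  act_face q i g x := Prod.ext (S.act_face q i g x.1) rfl

/-- The row over the `q`-simplices of `S`. -/
abbrev row (q : ℕ) : GSSet G where
  obj p := S.obj q × T.obj p
  face p i x := (x.1, T.face p i x.2)
  face_face p i j h x := Prod.ext rfl (T.face_face p i j h x.2)
  act p := pairAct (S.act q) (T.act p)
  act_face p i g x := Prod.ext rfl (T.act_face p i g x.2)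

/-- Columns are fibred over their base. -/
def colFib (p : ℕ) : Fibred (col S T p) S (T.act p) where
  e _ := Equiv.refl _
  e_face _ _ _ := rfl
  e_act _ _ _ := rfl

/-- Rows are fibred over their base. -/
def rowFib (q : ℕ) : Fibred (row S T q) T (S.act q) where
  e _ := Equiv.prodComm _ _
  e_face _ _ _ := rfl
  e_act _ _ _ := rfl

/-- Bidegree chains. -/
abbrev D (q p : ℕ) : Type := (col S T p).quot.Ch q

/-- The boundary in the first direction. -/
noncomputable abbrev dS (q p : ℕ) : D S T (q + 1) p →ₗ[ZMod 2] D S T q p := (col S T p).quot.bd q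

/-- The boundary in the second direction. -/
noncomputable abbrev dT (q p : ℕ) : D S T q (p + 1) →ₗ[ZMod 2] D S T q p := (row S T q).quot.bd p

/-- Forgetting the first factor. -/
noncomputable def eS (p : ℕ) : D S T 0 p →ₗ[ZMod 2] T.quot.Ch p :=
  Finsupp.lmapDomain (ZMod 2) (ZMod 2) (Quotient.map' Prod.snd (by
    rintro a b ⟨g, rfl⟩
    exact ⟨g, rfl⟩))

/-- Forgetting the second factor. -/
noncomputable def eT (q : ℕ) : D S T q 0 →ₗ[ZMod 2] S.quot.Ch q :=
  Finsupp.lmapDomain (ZMod 2) (ZMod 2) (Quotient.map' Prod.fst (by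
    rintro a b ⟨g, rfl⟩
    exact ⟨g, rfl⟩))

lemma eS_single (p : ℕ) (x : S.obj 0 × T.obj p) (c : ZMod 2) :
    eS S T p (Finsupp.single (Quotient.mk'' x) c) = Finsupp.single (Quotient.mk'' x.2) c := by
  unfold eS
  exact Finsupp.mapDomain_single

lemma eT_single (q : ℕ) (x : S.obj q × T.obj 0) (c : ZMod 2) :
    eT S T q (Finsupp.single (Quotient.mk'' x) c) = Finsupp.single (Quotient.mk'' x.1) c := by
  unfold eT
  exact Finsupp.mapDomain_single

lemma dS_single (q p : ℕ) (x : S.obj (q + 1) × T.obj p) (c : ZMod 2) :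
    dS S T q p (Finsupp.single (Quotient.mk'' x) c) =
      ∑ i, Finsupp.single (Quotient.mk'' (S.face q i x.1, x.2)) c :=
  SSet.bd_single _ _ _ _

lemma dT_single (q p : ℕ) (x : S.obj q × T.obj (p + 1)) (c : ZMod 2) :
    dT S T q p (Finsupp.single (Quotient.mk'' x) c) =
      ∑ i, Finsupp.single (Quotient.mk'' (x.1, T.face p i x.2)) c :=
  SSet.bd_single _ _ _ _

lemma dS_dT (q p : ℕ) (z : D S T (q + 1) (p + 1)) :
    dS S T q p (dT S T (q + 1) p z) = dT S T q p (dS S T q (p + 1) z) := by
  induction z using Finsupp.induction_linear with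
  | zero => simp
  | add a b ha hb => simp only [map_add, ha, hb]
  | single a c =>
    induction a using Quotient.inductionOn' with
    | h x =>
      erw [dT_single, dS_single, map_sum, map_sum]
      refine Eq.trans (Finset.sum_congr rfl fun i _ => dS_single S T q p _ c) ?_
      refine Eq.trans Finset.sum_comm (Finset.sum_congr rfl fun i _ => ?_)
      exact (dT_single S T q p (S.face q i x.1, x.2) c).symm

lemma dT_dT (q p : ℕ) (z : D S T q (p + 2)) : dT S T q p (dT S T q (p + 1) z) = 0 :=
  (row S T q).quot.bd_bd p z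

lemma eS_dT (p : ℕ) (z : D S T 0 (p + 1)) :
    eS S T p (dT S T 0 p z) = T.quot.bd p (eS S T (p + 1) z) := by
  induction z using Finsupp.induction_linear with
  | zero => simp
  | add a b ha hb => simp only [map_add, ha, hb]
  | single a c =>
    induction a using Quotient.inductionOn' with
    | h x =>
      erw [dT_single, map_sum, eS_single, SSet.bd_single]
      exact Finset.sum_congr rfl fun i _ => eS_single S T p _ c

lemma eT_dS (q : ℕ) (z : D S T (q + 1) 0) :
    eT S T q (dS S T q 0 z) = S.quot.bd q (eT S T (q + 1) z) := by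
  induction z using Finsupp.induction_linear with
  | zero => simp
  | add a b ha hb => simp only [map_add, ha, hb]
  | single a c =>
    induction a using Quotient.inductionOn' with
    | h x =>
      erw [dS_single, map_sum, eT_single, SSet.bd_single]
      exact Finset.sum_congr rfl fun i _ => eT_single S T q _ c

lemma eS_dS (p : ℕ) (z : D S T 1 p) : eS S T p (dS S T 0 p z) = 0 := by
  induction z using Finsupp.induction_linear with
  | zero => simp
  | add a b ha hb => simp only [map_add, ha, hb, add_zero]
  | single a c =>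
    induction a using Quotient.inductionOn' with
    | h x =>
      erw [dS_single, map_sum, Fin.sum_univ_two, eS_single, eS_single]
      exact add_self_zero _

lemma eT_dT (q : ℕ) (z : D S T q 1) : eT S T q (dT S T q 0 z) = 0 := by
  induction z using Finsupp.induction_linear with
  | zero => simp
  | add a b ha hb => simp only [map_add, ha, hb, add_zero]
  | single a c =>
    induction a using Quotient.inductionOn' with
    | h x =>
      erw [dT_single, map_sum, Fin.sum_univ_two, eT_single, eT_single]
      exact add_self_zero _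

lemma eS_surj [Nonempty (S.obj 0)] (p : ℕ) (a : T.quot.Ch p) : ∃ x, eS S T p x = a := by
  induction a using Finsupp.induction_linear with
  | zero => exact ⟨0, map_zero _⟩
  | add a b ha hb =>
    obtain ⟨x, rfl⟩ := ha
    obtain ⟨y, rfl⟩ := hb
    exact ⟨x + y, map_add _ _ _⟩
  | single a c =>
    induction a using Quotient.inductionOn' with
    | h t => exact ⟨_, eS_single S T p (Classical.arbitrary (S.obj 0), t) c⟩

lemma eT_surj [Nonempty (T.obj 0)] (q : ℕ) (a : S.quot.Ch q) : ∃ x, eT S T q x = a := by
  induction a using Finsupp.induction_linear with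
  | zero => exact ⟨0, map_zero _⟩
  | add a b ha hb =>
    obtain ⟨x, rfl⟩ := ha
    obtain ⟨y, rfl⟩ := hb
    exact ⟨x + y, map_add _ _ _⟩
  | single a c =>
    induction a using Quotient.inductionOn' with
    | h s => exact ⟨_, eT_single S T q (s, Classical.arbitrary (T.obj 0)) c⟩

/-- The cycles of a row, augmented. -/
def RowCyc (q : ℕ) : (p : ℕ) → D S T q p → Prop
  | 0, x => eT S T q x = 0
  | p + 1, x => dT S T q p x = 0

/-- The cycles of a column, augmented. -/
def ColCyc (p : ℕ) : (q : ℕ) → D S T q p → Prop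
  | 0, x => eS S T p x = 0
  | q + 1, x => dS S T q p x = 0

lemma eT_eq_push (q : ℕ) (x : D S T q 0) (h : eT S T q x = 0) : (rowFib S T q).push 0 x = 0 := h

lemma eS_eq_push (p : ℕ) (x : D S T 0 p) (h : eS S T p x = 0) : (colFib S T p).push 0 x = 0 := h

/-- Exactness of a row from the stabilisers of its base. -/
lemma row_exact {q p : ℕ} (h : ∀ s, (T.res (pstab (S.act q) s).subtype).quot.Exact p)
    (x : D S T q p) (hx : RowCyc S T q p x) : ∃ w, dT S T q p w = x := by
  cases p with
  | zero => exact (rowFib S T q).exact_zero h x (eT_eq_push S T q x hx)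
  | succ p => exact (rowFib S T q).exact_succ p h x hx

/-- Exactness of a column from the stabilisers of its base. -/
lemma col_exact {q p : ℕ} (h : ∀ t, (S.res (pstab (T.act p) t).subtype).quot.Exact q)
    (x : D S T q p) (hx : ColCyc S T p q x) : ∃ w, dS S T q p w = x := by
  cases q with
  | zero => exact (colFib S T p).exact_zero h x (eS_eq_push S T p x hx)
  | succ q => exact (colFib S T p).exact_succ q h x hx

/-- The chase through the interior of the double complex. -/
lemma push_down {i : ℕ} [Nonempty (S.obj 0)]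
    (hrow : ∀ q p, q + p < i → ∀ s, (T.res (pstab (S.act q) s).subtype).quot.Exact p)
    (hcol : ∀ q p, q + p = i → q < i → ∀ t, (S.res (pstab (T.act p) t).subtype).quot.Exact q)
    (hA : T.quot.Exact i) : ∀ q p, q + 1 + p = i → ∀ x : D S T (q + 1) p,
      RowCyc S T q p (dS S T q p x) → ∃ w, dS S T q p (x + dT S T (q + 1) p w) = 0 := by
  intro q
  induction q with
  | zero =>
    intro p hp x hx
    obtain ⟨u, hu⟩ := row_exact S T (hrow 0 p (by omega)) _ hx
    have ha : T.quot.bd p (eS S T (p + 1) u) = 0 := by rw [← eS_dT, hu, eS_dS]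
    obtain ⟨a', ha'⟩ : ∃ a', T.quot.bd (p + 1) a' = eS S T (p + 1) u := by
      have h1 : T.quot.Exact (p + 1) := (show p + 1 = i by omega) ▸ hA
      exact h1 _ ha
    obtain ⟨y, hy⟩ := eS_surj S T (p + 2) a'
    have hc : ColCyc S T (p + 1) 0 (u + dT S T 0 (p + 1) y) := by
      show eS S T (p + 1) _ = 0
      rw [map_add, eS_dT, hy, ha', add_self_zero]
    obtain ⟨v, hv⟩ := col_exact S T (hcol 0 (p + 1) (by omega) (by omega)) _ hc
    refine ⟨v, ?_⟩
    rw [map_add, dS_dT, hv, map_add, dT_dT S T 0 p y,
      add_zero, hu]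
    exact add_self_zero _
  | succ q ih =>
    intro p hp x hx
    obtain ⟨u, hu⟩ := row_exact S T (hrow (q + 1) p (by omega)) _ hx
    have hu' : RowCyc S T q (p + 1) (dS S T q (p + 1) u) := by
      show dT S T q p _ = 0
      rw [← dS_dT, hu]
      exact SSet.bd_bd _ q x
    obtain ⟨y, hy⟩ := ih (p + 1) (by omega) u hu'
    obtain ⟨v, hv⟩ := col_exact S T (hcol (q + 1) (p + 1) (by omega) (by omega))
      (u + dT S T (q + 1) (p + 1) y) hy
    refine ⟨v, ?_⟩
    rw [map_add, dS_dT, hv, map_add,
      dT_dT S T (q + 1) p y, add_zero, hu]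
    exact add_self_zero _

/-- Every cycle of the orbit complex comes from a cycle of the first column. -/
theorem chase {i : ℕ} [Nonempty (S.obj 0)] [Nonempty (T.obj 0)]
    (hrow : ∀ q p, q + p < i + 1 → ∀ s, (T.res (pstab (S.act q) s).subtype).quot.Exact p)
    (hcol : ∀ q p, q + p = i + 1 → q < i + 1 →
      ∀ t, (S.res (pstab (T.act p) t).subtype).quot.Exact q)
    (hA : T.quot.Exact (i + 1)) (z : S.quot.Ch (i + 1)) (hz : S.quot.bd i z = 0) :
    ∃ x : D S T (i + 1) 0, dS S T i 0 x = 0 ∧ eT S T (i + 1) x = z := by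
  obtain ⟨x, hx⟩ := eT_surj S T (i + 1) z
  have hr : RowCyc S T i 0 (dS S T i 0 x) := by
    show eT S T i _ = 0
    rw [eT_dS, hx, hz]
  obtain ⟨w, hw⟩ := push_down S T hrow hcol hA i 0 rfl x hr
  exact ⟨_, hw, by rw [map_add, eT_dT, add_zero, hx]⟩

end Double

end Vale.Agent.P067
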