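import Vale.Agent.P067.Alg.Compare

/-!
# P067: orbit complexes of products with a set
-/

namespace Vale.Agent.P067

open Finset

variable {G : Type} [Group G]

/-- The stabiliser of a point. -/
def pstab {Y : Type} (ρ : G →* Equiv.Perm Y) (y : Y) : Subgroup G where
  carrier := {g | ρ g y = y}
  one_mem' := by simp
  mul_mem' {a b} ha hb := by
    simp only [Set.mem_ofPred_eq, map_mul, Equiv.Perm.mul_apply] at *
    rw [hb, ha]
  inv_mem' {a} ha := by
    simp only [Set.mem_ofPred_eq, map_inv] at *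
    rw [Equiv.Perm.inv_eq_iff_eq]
    exact ha.symm

/-- The orbits of a set. -/
def porb {Y : Type} (ρ : G →* Equiv.Perm Y) : Setoid Y where
  r a b := ∃ g, ρ g a = b
  iseqv := by
    refine ⟨fun a => ⟨1, by simp⟩, ?_, ?_⟩
    · rintro a b ⟨g, rfl⟩
      exact ⟨g⁻¹, by simp⟩
    · rintro a b c ⟨g, rfl⟩ ⟨h, rfl⟩
      exact ⟨h * g, by simp⟩

/-- An equivariant product decomposition of a semisimplicial set. -/
structure Fibred (P S : GSSet G) {Y : Type} (ρ : G →* Equiv.Perm Y) where
  e : ∀ q, P.obj q ≃ S.obj q × Y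
  e_face : ∀ q i x, e q (P.face q i x) = (S.face q i (e (q + 1) x).1, (e (q + 1) x).2)
  e_act : ∀ q g x, e q (P.act q g x) = (S.act q g (e q x).1, ρ g (e q x).2)

namespace Fibred

variable {P S : GSSet G} {Y : Type} {ρ : G →* Equiv.Perm Y} (φ : Fibred P S ρ)

lemma symm_act (q : ℕ) (g : G) (s : S.obj q) (y : Y) :
    P.act q g ((φ.e q).symm (s, y)) = (φ.e q).symm (S.act q g s, ρ g y) := by
  apply (φ.e q).injective
  simp [φ.e_act]

lemma symm_face (q : ℕ) (i : Fin (q + 2)) (s : S.obj (q + 1)) (y : Y) :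
    P.face q i ((φ.e (q + 1)).symm (s, y)) = (φ.e q).symm (S.face q i s, y) := by
  apply (φ.e q).injective
  simp [φ.e_face]

/-- The fibre over a point, modulo its stabiliser. -/
def fibre (y : Y) : SSet.Hom (S.res (pstab ρ y).subtype).quot P.quot where
  app q := Quotient.map' (fun s => (φ.e q).symm (s, y)) (by
    rintro a b ⟨g, rfl⟩
    refine ⟨g, ?_⟩
    rw [φ.symm_act]
    exact congrArg (φ.e q).symm (Prod.ext rfl g.2))
  comm q i x := by
    induction x using Quotient.inductionOn' with
    | h s => exact congrArg Quotient.mk'' (φ.symm_face q i s y).symm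

open Classical in
/-- The component of one simplex over the orbit of `y`. -/
noncomputable def compFn (y : Y) (q : ℕ) (x : P.obj q) :
    (S.res (pstab ρ y).subtype).quot.Ch q :=
  if h : ∃ g, ρ g y = (φ.e q x).2 then
    Finsupp.single (Quotient.mk'' (S.act q (Classical.choose h)⁻¹ (φ.e q x).1)) 1
  else 0

lemma compFn_eq (y : Y) (q : ℕ) (x : P.obj q) {g : G} (hg : ρ g y = (φ.e q x).2) :
    φ.compFn y q x = Finsupp.single (Quotient.mk'' (S.act q g⁻¹ (φ.e q x).1)) 1 := by
  have h : ∃ g, ρ g y = (φ.e q x).2 := ⟨g, hg⟩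
  rw [compFn, dif_pos h]
  refine congrArg (Finsupp.single · (1 : ZMod 2)) (Quotient.sound ?_)
  have hm : g⁻¹ * Classical.choose h ∈ pstab ρ y := by
    show ρ (g⁻¹ * Classical.choose h) y = y
    rw [map_mul, Equiv.Perm.mul_apply, Classical.choose_spec h, ← hg, ← Equiv.Perm.mul_apply,
      ← map_mul, inv_mul_cancel, map_one, Equiv.Perm.one_apply]
  refine ⟨⟨_, hm⟩, ?_⟩
  show S.act q (g⁻¹ * Classical.choose h) (S.act q (Classical.choose h)⁻¹ (φ.e q x).1) = _
  rw [← Equiv.Perm.mul_apply, ← map_mul, mul_inv_cancel_right]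

lemma compFn_zero (y : Y) (q : ℕ) (x : P.obj q) (h : ¬ ∃ g, ρ g y = (φ.e q x).2) :
    φ.compFn y q x = 0 := by rw [compFn, dif_neg h]

lemma compFn_act (y : Y) (q : ℕ) (g : G) (x : P.obj q) :
    φ.compFn y q (P.act q g x) = φ.compFn y q x := by
  by_cases h : ∃ k, ρ k y = (φ.e q x).2
  · obtain ⟨k, hk⟩ := h
    have hk' : ρ (g * k) y = (φ.e q (P.act q g x)).2 := by
      rw [φ.e_act, map_mul, Equiv.Perm.mul_apply, hk]
    rw [φ.compFn_eq y q _ hk', φ.compFn_eq y q x hk, φ.e_act]
    refine congrArg (Finsupp.single · (1 : ZMod 2)) (congrArg Quotient.mk'' ?_)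
    show S.act q (g * k)⁻¹ (S.act q g (φ.e q x).1) = _
    rw [← Equiv.Perm.mul_apply, ← map_mul, mul_inv_rev, inv_mul_cancel_right]
  · rw [φ.compFn_zero y q x h, φ.compFn_zero]
    rintro ⟨k, hk⟩
    refine h ⟨g⁻¹ * k, ?_⟩
    rw [φ.e_act] at hk
    rw [map_mul, Equiv.Perm.mul_apply, hk, ← Equiv.Perm.mul_apply, ← map_mul, inv_mul_cancel,
      map_one, Equiv.Perm.one_apply]

/-- The component over the orbit of `y`. -/
noncomputable def comp (y : Y) (q : ℕ) :
    P.quot.Ch q →ₗ[ZMod 2] (S.res (pstab ρ y).subtype).quot.Ch q :=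
  Finsupp.linearCombination (ZMod 2) (Quotient.lift (φ.compFn y q) (by
    rintro a b ⟨g, rfl⟩
    exact (φ.compFn_act y q g a).symm))

lemma comp_single (y : Y) (q : ℕ) (x : P.obj q) (c : ZMod 2) :
    φ.comp y q (Finsupp.single (Quotient.mk'' x) c) = c • φ.compFn y q x :=
  Finsupp.linearCombination_single _ _ _

lemma comp_bd (y : Y) (q : ℕ) (z : P.quot.Ch (q + 1)) :
    φ.comp y q (P.quot.bd q z) = (S.res (pstab ρ y).subtype).quot.bd q (φ.comp y (q + 1) z) := by
  induction z using Finsupp.induction_linear with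
  | zero => simp
  | add a b ha hb => simp [ha, hb]
  | single a c =>
    induction a using Quotient.inductionOn' with
    | h x =>
      rw [SSet.bd_single, map_sum, comp_single, map_smul]
      have e : ∀ i, φ.comp y q (Finsupp.single (P.quot.face q i (Quotient.mk'' x)) c) =
          c • φ.compFn y q (P.face q i x) := fun i => φ.comp_single y q _ c
      simp only [e, ← smul_sum]
      refine congrArg (c • ·) ?_
      by_cases h : ∃ g, ρ g y = (φ.e (q + 1) x).2
      · obtain ⟨g, hg⟩ := h
        rw [φ.compFn_eq y (q + 1) x hg, SSet.bd_single]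
        refine Finset.sum_congr rfl fun i _ => ?_
        rw [φ.compFn_eq y q (P.face q i x) (g := g) (by rw [φ.e_face]; exact hg), φ.e_face]
        exact congrArg (Finsupp.single · (1 : ZMod 2))
          (congrArg Quotient.mk'' (S.act_face q i g⁻¹ _).symm)
      · rw [φ.compFn_zero y (q + 1) x h, map_zero]
        exact Finset.sum_eq_zero fun i _ => φ.compFn_zero y q _ (by rwa [φ.e_face])

/-- The projection of a simplex to the orbits of the set. -/
noncomputable def push (q : ℕ) : P.quot.Ch q →ₗ[ZMod 2] (Quotient (porb ρ) →₀ ZMod 2) :=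
  Finsupp.lmapDomain (ZMod 2) (ZMod 2) (Quotient.map' (fun x => (φ.e q x).2) (by
    rintro a b ⟨g, rfl⟩
    exact ⟨g, by simp [φ.e_act]⟩))

lemma aug_comp (o : Quotient (porb ρ)) (z : P.quot.Ch 0) :
    (S.res (pstab ρ o.out).subtype).quot.aug (φ.comp o.out 0 z) = φ.push 0 z o := by
  classical
  induction z using Finsupp.induction_linear with
  | zero => simp
  | add a b ha hb => simp [ha, hb]
  | single a c =>
    induction a using Quotient.inductionOn' with
    | h x =>
      have e : φ.push 0 (Finsupp.single (Quotient.mk'' x) c) =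
          Finsupp.single (Quotient.mk'' (φ.e 0 x).2) c := Finsupp.mapDomain_single
      rw [comp_single, map_smul, e, Finsupp.single_apply]
      by_cases h : ∃ g, ρ g o.out = (φ.e 0 x).2
      · obtain ⟨g, hg⟩ := h
        rw [φ.compFn_eq o.out 0 x hg, if_pos]
        · simp [SSet.aug]
        · rw [← hg]
          refine Eq.trans ?_ (Quotient.out_eq o)
          exact (Quotient.sound (s := porb ρ) ⟨g, rfl⟩).symm
      · rw [φ.compFn_zero _ _ _ h, map_zero, smul_zero, if_neg]
        intro ho
        obtain ⟨g, hg⟩ := Quotient.exact (s := porb ρ) ((Quotient.out_eq o).trans ho.symm)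
        exact h ⟨g, hg⟩

open Classical in
lemma decompose (q : ℕ) (z : P.quot.Ch q) : ∃ F : Finset (Quotient (porb ρ)), ∀ F', F ⊆ F' →
    z = ∑ o ∈ F', (φ.fibre o.out).chain q (φ.comp o.out q z) := by
  induction z using Finsupp.induction_linear with
  | zero => exact ⟨∅, fun F' _ => by simp⟩
  | add a b ha hb =>
    obtain ⟨A, hA⟩ := ha
    obtain ⟨B, hB⟩ := hb
    refine ⟨A ∪ B, fun F' hF => ?_⟩
    simp only [map_add, sum_add_distrib, ← hA F' (union_subset_left hF),
      ← hB F' (union_subset_right hF)]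
  | single a c =>
    induction a using Quotient.inductionOn' with
    | h x =>
      refine ⟨{Quotient.mk'' (φ.e q x).2}, fun F' hF => ?_⟩
      rw [Finset.sum_eq_single_of_mem (Quotient.mk'' (φ.e q x).2) (hF (mem_singleton_self _))]
      · obtain ⟨g, hg⟩ := Quotient.exact (s := porb ρ)
          (Quotient.out_eq (Quotient.mk'' (φ.e q x).2 : Quotient (porb ρ)))
        rw [comp_single, φ.compFn_eq _ q x hg, map_smul]
        refine (single_eq_smul _ c).trans (congrArg (c • ·) ?_)
        refine Eq.trans ?_ (SSet.Hom.chain_single _ _ _ _).symm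
        refine congrArg (Finsupp.single · (1 : ZMod 2)) (Quotient.sound ⟨g⁻¹, ?_⟩)
        apply (φ.e q).injective
        rw [φ.e_act, Equiv.apply_symm_apply]
        refine Prod.ext rfl ?_
        show ρ g⁻¹ (φ.e q x).2 = _
        rw [map_inv, Equiv.Perm.inv_eq_iff_eq]
        exact hg.symm
      · intro o _ ho
        rw [comp_single, φ.compFn_zero, smul_zero, map_zero]
        rintro ⟨g, hg⟩
        refine ho ?_
        rw [← hg]
        refine ((Quotient.out_eq o).symm).trans ?_
        exact Quotient.sound (s := porb ρ) ⟨g, rfl⟩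

include φ in
/-- Exactness from the fibres. -/
theorem exact_succ (q : ℕ) (h : ∀ y, (S.res (pstab ρ y).subtype).quot.Exact (q + 1)) :
    P.quot.Exact (q + 1) := by
  intro z hz
  obtain ⟨F, hF⟩ := φ.decompose (q + 1) z
  show z ∈ P.quot.bdry (q + 1)
  rw [hF F subset_rfl]
  refine Submodule.sum_mem _ fun o _ => (φ.fibre o.out).mem_bdry ?_
  refine ((SSet.exact_iff _ _).1 (h o.out)) _ ?_
  show _ = (0 : (S.res (pstab ρ o.out).subtype).quot.Ch q)
  rw [← φ.comp_bd, hz, map_zero]

/-- Exactness in degree zero, relative to the orbits of the set. -/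
theorem exact_zero (h : ∀ y, (S.res (pstab ρ y).subtype).quot.Exact 0) (z : P.quot.Ch 0)
    (hz : φ.push 0 z = 0) : z ∈ P.quot.bdry 0 := by
  obtain ⟨F, hF⟩ := φ.decompose 0 z
  rw [hF F subset_rfl]
  refine Submodule.sum_mem _ fun o _ => (φ.fibre o.out).mem_bdry ?_
  refine ((SSet.exact_iff _ _).1 (h o.out)) _ ?_
  show _ = (0 : ZMod 2)
  rw [φ.aug_comp, hz]
  rfl

end Fibred

end Vale.Agent.P067
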