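import Vale.Agent.P067.Alg.Prism

/-!
# P067: homomorphisms, odd kernels and odd index
-/

namespace Vale.Agent.P067

open Finset

namespace SSet

variable {S T U : SSet}

/-- Composition. -/
def Hom.comp (g : Hom T U) (f : Hom S T) : Hom S U where
  app q s := g.app q (f.app q s)
  comm q i s := by rw [f.comm, g.comm]

lemma Hom.chain_comp (g : Hom T U) (f : Hom S T) (q : ℕ) (x : S.Ch q) :
    g.chain q (f.chain q x) = (g.comp f).chain q x := by
  induction x using Finsupp.induction_linear with
  | zero => simp
  | add a b ha hb => simp [ha, hb]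
  | single s c => simp [Hom.comp]

lemma Hom.chain_congr {f g : Hom S T} {q : ℕ} (h : ∀ s, f.app q s = g.app q s) (x : S.Ch q) :
    f.chain q x = g.chain q x := by
  induction x using Finsupp.induction_linear with
  | zero => simp
  | add a b ha hb => simp [ha, hb]
  | single s c => simp [h]

lemma Hom.chain_id {f : Hom S S} {q : ℕ} (h : ∀ s, f.app q s = s) (x : S.Ch q) :
    f.chain q x = x := by
  induction x using Finsupp.induction_linear with
  | zero => simp
  | add a b ha hb => simp [ha, hb]
  | single s c => simp [h]

lemma bdry_trans {q : ℕ} {x y z : S.Ch q} (h : x + y ∈ S.bdry q) (h' : y + z ∈ S.bdry q) :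
    x + z ∈ S.bdry q := by
  have := Submodule.add_mem _ h h'
  rwa [add_assoc, ← add_assoc y, add_self_zero, zero_add] at this

lemma mem_bdry_of_add {q : ℕ} {x y : S.Ch q} (h : x + y ∈ S.bdry q) (hy : y ∈ S.bdry q) :
    x ∈ S.bdry q := by
  have := Submodule.add_mem _ h hy
  rwa [add_assoc, add_self_zero, add_zero] at this

end SSet

variable {G H K Q : Type} [Group G] [Group H] [Group K] [Group Q]

/-- Homomorphisms conjugate in the target agree on homology. -/
theorem hmap_conj (φ ψ : H →* K) (c : K) (hc : ∀ h, ψ h = c * φ h * c⁻¹) (q : ℕ)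
    (z : (GH H).Ch q) (hz : (GH H).IsCycle q z) :
    (hmap φ).chain q z + (hmap ψ).chain q z ∈ (GH K).bdry q := by
  have hf : ∀ h a : H, ψ ((MonoidHom.id H) h * a) = (MonoidHom.id K) (ψ h) * ψ a := fun h a => by
    simp
  have hg : ∀ h a : H, c * φ ((MonoidHom.id H) h * a) = (MonoidHom.id K) (ψ h) * (c * φ a) :=
    fun h a => by simp [hc]; group
  have key := qmap_homotopic (ι := MonoidHom.id H) (χ := MonoidHom.id K) (φ := ψ) ψ
    (fun a => c * φ a) hf hg q z hz
  have e2 : (hmap φ).chain q z = (qmap (ι := MonoidHom.id H) (χ := MonoidHom.id K) (φ := ψ)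
      (fun a => c * φ a) hg).chain q z := SSet.Hom.chain_congr (fun s => by
    induction s using Quotient.inductionOn' with
    | h s => exact Quotient.sound ⟨c, rfl⟩) z
  rw [add_comm, e2]
  exact key

namespace GSSet

variable (S : GSSet G) (N : Subgroup G)

/-- The orbits of a normal subgroup, with the action of the whole group. -/
abbrev quotN [N.Normal] : GSSet G where
  toSSet := (S.res N.subtype).quot
  act q :=
    { toFun := fun g =>
        { toFun := Quotient.map' (S.act q g) (by
            rintro a b ⟨n, rfl⟩
            refine ⟨⟨g * (n : G) * g⁻¹, ‹N.Normal›.conj_mem _ n.2 g⟩, ?_⟩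
            show S.act q (g * (n : G) * g⁻¹) (S.act q g a) = S.act q g (S.act q n a)
            simp [map_mul])
          invFun := Quotient.map' (S.act q g⁻¹) (by
            rintro a b ⟨n, rfl⟩
            refine ⟨⟨g⁻¹ * (n : G) * g⁻¹⁻¹, ‹N.Normal›.conj_mem _ n.2 g⁻¹⟩, ?_⟩
            show S.act q (g⁻¹ * (n : G) * g⁻¹⁻¹) (S.act q g⁻¹ a) = S.act q g⁻¹ (S.act q n a)
            simp [map_mul])
          left_inv := fun x => by
            induction x using Quotient.inductionOn' with
            | h s => exact congrArg Quotient.mk'' (by simp)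
          right_inv := fun x => by
            induction x using Quotient.inductionOn' with
            | h s => exact congrArg Quotient.mk'' (by simp) }
      map_one' := Equiv.ext fun x => by
        induction x using Quotient.inductionOn' with
        | h s => exact congrArg Quotient.mk'' (by simp)
      map_mul' := fun g h => Equiv.ext fun x => by
        induction x using Quotient.inductionOn' with
        | h s => exact congrArg Quotient.mk'' (by simp) }
  act_face q i g x := by
    induction x using Quotient.inductionOn' with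
    | h s => exact congrArg Quotient.mk'' (S.act_face q i g s)

lemma quotN_act_mem [N.Normal] {n : G} (hn : n ∈ N) (q : ℕ) (x : (S.quotN N).obj q) :
    (S.quotN N).act q n x = x := by
  induction x using Quotient.inductionOn' with
  | h s => exact Quotient.sound ⟨⟨n⁻¹, N.inv_mem hn⟩, by simp [GSSet.res]⟩

/-- From the orbits of a subgroup to the orbits of the group. -/
def toQuot : SSet.Hom (S.res N.subtype).quot S.quot where
  app q := Quotient.map' id (by rintro a b ⟨n, rfl⟩; exact ⟨n, rfl⟩)
  comm q i x := by
    induction x using Quotient.inductionOn' with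
    | h s => rfl

lemma toQuot_act [N.Normal] (q : ℕ) (g : G) (x : (S.quotN N).obj q) :
    (S.toQuot N).app q ((S.quotN N).act q g x) = (S.toQuot N).app q x := by
  induction x using Quotient.inductionOn' with
  | h s => exact S.mk_act q g s

/-- The transfer. -/
noncomputable def transfer [N.Normal] [Fintype (G ⧸ N)] (q : ℕ) :
    S.quot.Ch q →ₗ[ZMod 2] (S.quotN N).Ch q :=
  Finsupp.linearCombination (ZMod 2) (Quotient.lift
    (fun s => ∑ c : G ⧸ N, Finsupp.single
      ((S.quotN N).act q c.out (Quotient.mk'' s : (S.quotN N).obj q)) (1 : ZMod 2)) (by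
      rintro a b ⟨g, rfl⟩
      symm
      refine Fintype.sum_equiv (Equiv.mulRight (g : G ⧸ N)) _ _ fun c => ?_
      congr 1
      have hn : (c * (g : G ⧸ N)).out⁻¹ * (c.out * g) ∈ N := by
        rw [← QuotientGroup.eq, QuotientGroup.out_eq', QuotientGroup.mk_mul, QuotientGroup.out_eq']
      show (S.quotN N).act q c.out ((S.quotN N).act q g (Quotient.mk'' a)) =
        (S.quotN N).act q (c * (g : G ⧸ N)).out (Quotient.mk'' a)
      conv_rhs => rw [← S.quotN_act_mem N hn q (Quotient.mk'' a)]
      rw [← Equiv.Perm.mul_apply, ← map_mul, ← Equiv.Perm.mul_apply, ← map_mul, mul_inv_cancel_left]))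

lemma transfer_bd [N.Normal] [Fintype (G ⧸ N)] (q : ℕ) (x : S.quot.Ch (q + 1)) :
    S.transfer N q (S.quot.bd q x) = (S.quotN N).bd q (S.transfer N (q + 1) x) := by
  induction x using Finsupp.induction_linear with
  | zero => simp
  | add a b ha hb => simp [ha, hb]
  | single x c =>
    induction x using Quotient.inductionOn' with
    | h s =>
      rw [SSet.bd_single]
      simp only [map_sum, transfer, Finsupp.linearCombination_single, map_smul]
      refine Eq.trans ?_ (congrArg (c • ·) (Finset.sum_congr rfl fun d _ =>
        ((S.quotN N).bd_single q _ 1).symm) |>.trans (congrArg (c • ·) (map_sum _ _ _).symm))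
      rw [Finset.sum_comm, Finset.smul_sum]
      refine Finset.sum_congr rfl fun i _ => ?_
      refine congrArg (c • ·) (Finset.sum_congr rfl fun d _ => congrArg (Finsupp.single · (1 : ZMod 2)) ?_)
      exact ((S.quotN N).act_face q i d.out (Quotient.mk'' s)).symm

lemma transfer_toQuot [N.Normal] [Fintype (G ⧸ N)] (q : ℕ) (z : (S.quotN N).Ch q) :
    S.transfer N q ((S.toQuot N).chain q z) = ∑ c : G ⧸ N, (S.quotN N).tr q c.out z := by
  induction z using Finsupp.induction_linear with
  | zero => exact (congrArg _ (map_zero _)).trans ((map_zero _).trans (by simp))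
  | add a b ha hb =>
    refine (congrArg _ (map_add _ _ _)).trans ((map_add _ _ _).trans ?_)
    rw [ha, hb, ← Finset.sum_add_distrib]
    exact Finset.sum_congr rfl fun c _ => (map_add _ _ _).symm
  | single x c =>
    induction x using Quotient.inductionOn' with
    | h s =>
      refine (congrArg _ (SSet.Hom.chain_single _ _ _ _)).trans ?_
      refine (Finsupp.linearCombination_single _ _ _).trans (Finset.smul_sum.trans ?_)
      refine Finset.sum_congr rfl fun d _ => ?_
      rw [tr_single]
      exact (Finsupp.smul_single c _ _).trans (by rw [smul_eq_mul, mul_one]; rfl)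

/-- An invariant class killed by the projection to the orbits vanishes, for odd index. -/
theorem mem_bdry_of_invariant [N.Normal] [Finite (G ⧸ N)] (hodd : Odd (Nat.card (G ⧸ N))) (q : ℕ)
    (z : (S.quotN N).Ch q) (hinv : ∀ g, (S.quotN N).tr q g z + z ∈ (S.quotN N).bdry q)
    (hz : (S.toQuot N).chain q z ∈ S.quot.bdry q) : z ∈ (S.quotN N).bdry q := by
  let _ : Fintype (G ⧸ N) := Fintype.ofFinite _
  obtain ⟨w, hw⟩ := hz
  have h1 : ∑ c : G ⧸ N, (S.quotN N).tr q c.out z ∈ (S.quotN N).bdry q := by
    rw [← transfer_toQuot, ← hw, transfer_bd]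
    exact SSet.bd_mem _ q _
  have h2 := Submodule.sum_mem _ fun (c : G ⧸ N) (_ : c ∈ univ) => hinv c.out
  rw [sum_add_distrib, sum_const, card_univ,
    natCast_smul_odd (by rwa [← Nat.card_eq_fintype_card])] at h2
  have := Submodule.add_mem _ h1 h2
  rwa [← add_assoc, add_self_zero, zero_add] at this

end GSSet

/-- A translation commuting with the faces, as a map. -/
def GSSet.actHom {G : Type} [Group G] (S : GSSet G) (g : G) : SSet.Hom S.toSSet S.toSSet where
  app q := S.act q g
  comm q i s := (S.act_face q i g s).symm

lemma GSSet.actHom_chain {G : Type} [Group G] (S : GSSet G) (g : G) (q : ℕ) (x : S.Ch q) :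
    (S.actHom g).chain q x = S.tr q g x := rfl

section subgroup

variable (N : Subgroup G)

/-- A retraction onto a subgroup. -/
noncomputable def retr (a : G) : N :=
  ⟨a * (Quotient.out (Quotient.mk (QuotientGroup.rightRel N) a))⁻¹, by
    have h := Quotient.exact (Quotient.out_eq (Quotient.mk (QuotientGroup.rightRel N) a))
    exact QuotientGroup.rightRel_apply.1 h⟩

lemma retr_mul (n : N) (a : G) : retr N (n * a) = n * retr N a := by
  have : Quotient.mk (QuotientGroup.rightRel N) ((n : G) * a) =
      Quotient.mk (QuotientGroup.rightRel N) a := by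
    refine Quotient.sound (QuotientGroup.rightRel_apply.2 ?_)
    rw [mul_inv_rev, mul_inv_cancel_left]
    exact N.inv_mem n.2
  ext
  simp only [retr, this, Subgroup.coe_mul, mul_assoc]

/-- The homology of a subgroup inside the full simplex of the group. -/
def inclQ : SSet.Hom (GH N) ((simplexE G).res N.subtype).quot :=
  qmap (ι := MonoidHom.id N) (χ := N.subtype) (φ := MonoidHom.id N) N.subtype fun _ _ => rfl

/-- Back to the subgroup. -/
noncomputable def retrQ : SSet.Hom ((simplexE G).res N.subtype).quot (GH N) :=
  qmap (ι := N.subtype) (χ := MonoidHom.id N) (φ := MonoidHom.id N) (retr N) fun n a =>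
    retr_mul N n a

lemma incl_retr (q : ℕ) (z : ((simplexE G).res N.subtype).quot.Ch q)
    (hz : ((simplexE G).res N.subtype).quot.IsCycle q z) :
    z + (inclQ N).chain q ((retrQ N).chain q z) ∈ ((simplexE G).res N.subtype).quot.bdry q := by
  have hf : ∀ (n : N) (a : G), (id : G → G) (N.subtype n * a) = N.subtype n * id a := fun _ _ => rfl
  have hg : ∀ (n : N) (a : G), ((retr N (N.subtype n * a) : N) : G) = N.subtype n * (retr N a : G) :=
    fun n a => by
      show ((retr N ((n : G) * a) : N) : G) = _
      rw [retr_mul]; rfl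
  have key := qmap_homotopic (ι := N.subtype) (χ := N.subtype) (φ := MonoidHom.id N) id
    (fun a => (retr N a : G)) hf hg q z hz
  rw [SSet.Hom.chain_id (f := qmap id hf) (fun s => by
    induction s using Quotient.inductionOn' with
    | h s => rfl) z] at key
  rw [SSet.Hom.chain_comp]
  convert key using 2
  exact SSet.Hom.chain_congr (fun s => by
    induction s using Quotient.inductionOn' with
    | h s => rfl) z

/-- The full simplex of the group computes the homology of a subgroup. -/
theorem res_exact_of_GH_exact {q : ℕ} (h : (GH N).Exact q) :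
    ((simplexE G).res N.subtype).quot.Exact q := by
  rw [SSet.exact_iff] at h ⊢
  intro z hz
  exact SSet.mem_bdry_of_add (incl_retr N q z hz)
    ((inclQ N).mem_bdry (h _ ((retrQ N).isCycle hz)))

lemma mem_bdry_of_inclQ (q : ℕ) (z : (GH N).Ch q) (hz : (GH N).IsCycle q z)
    (h : (inclQ N).chain q z ∈ ((simplexE G).res N.subtype).quot.bdry q) :
    z ∈ (GH N).bdry q := by
  have h1 : ((retrQ N).comp (inclQ N)).chain q z ∈ (GH N).bdry q :=
    (SSet.Hom.chain_comp (retrQ N) (inclQ N) q z) ▸ (retrQ N).mem_bdry h
  have hi : ∀ n a : N, (id : N → N) (MonoidHom.id N n * a) = MonoidHom.id N (MonoidHom.id N n) * id a :=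
    fun _ _ => rfl
  have hr : ∀ n a : N, retr N ((MonoidHom.id N n * a : N) : G) =
      MonoidHom.id N (MonoidHom.id N n) * retr N (a : G) := fun n a => retr_mul N n a
  have key := qmap_homotopic (ι := MonoidHom.id N) (χ := MonoidHom.id N) (φ := MonoidHom.id N) id
    (fun n => retr N (n : G)) hi hr q z hz
  have e1 : (qmap id hi).chain q z = z := SSet.Hom.chain_id (fun s => by
    induction s using Quotient.inductionOn' with
    | h s => rfl) z
  have e2 : (qmap (fun n : N => retr N (n : G)) hr).chain q z =
      ((retrQ N).comp (inclQ N)).chain q z := SSet.Hom.chain_congr (fun s => by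
    induction s using Quotient.inductionOn' with
    | h s => rfl) z
  rw [e1, e2] at key
  exact SSet.mem_bdry_of_add key h1

/-- An invariant class of a normal subgroup of odd index that dies in the group is zero. -/
theorem mem_bdry_of_index_odd [N.Normal] [Finite (G ⧸ N)] (hodd : Odd (Nat.card (G ⧸ N))) (q : ℕ)
    (z : (GH N).Ch q) (hz : (GH N).IsCycle q z)
    (hinv : ∀ (g : G) (φ : N →* N), (∀ n, (φ n : G) = g * n * g⁻¹) →
      (hmap φ).chain q z + z ∈ (GH N).bdry q)
    (h : (hmap N.subtype).chain q z ∈ (GH G).bdry q) : z ∈ (GH N).bdry q := by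
  refine mem_bdry_of_inclQ N q z hz ((simplexE G).mem_bdry_of_invariant N hodd q _ ?_ ?_)
  · intro g
    let φ : N →* N :=
      { toFun := fun n => ⟨g * n * g⁻¹, ‹N.Normal›.conj_mem _ n.2 g⟩
        map_one' := by ext; simp
        map_mul' := fun a b => by ext; simp }
    have h1 := (inclQ N).mem_bdry (hinv g φ fun _ => rfl)
    rw [map_add, SSet.Hom.chain_comp] at h1
    have hf : ∀ n a : N, g * ((MonoidHom.id N n * a : N) : G) = N.subtype (φ n) * (g * a) :=
      fun n a => by simp [φ, mul_assoc]
    have hg : ∀ n a : N, ((φ (MonoidHom.id N n * a) : N) : G) = N.subtype (φ n) * (φ a : G) :=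
      fun n a => by simp
    have key := qmap_homotopic (ι := MonoidHom.id N) (χ := N.subtype) (φ := φ)
      (fun a => g * (a : G)) (fun a => (φ a : G)) hf hg q z hz
    refine SSet.bdry_trans ?_ h1
    convert key using 2
    · refine (((simplexE G).quotN N).actHom_chain g q _).symm.trans ?_
      refine (SSet.Hom.chain_comp _ _ _ _).trans (SSet.Hom.chain_congr (fun s => ?_) z)
      induction s using Quotient.inductionOn' with
      | h s => rfl
    · exact SSet.Hom.chain_congr (fun s => by
        induction s using Quotient.inductionOn' with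
        | h s => rfl) z
  · rw [SSet.Hom.chain_comp]
    convert h using 1
    exact SSet.Hom.chain_congr (fun s => by
      induction s using Quotient.inductionOn' with
      | h s => rfl) z

end subgroup

end Vale.Agent.P067
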