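import Vale.Agent.P067.Alg.Transfer

/-!
# P067: maps of vertices and the prism between two of them
-/

namespace Vale.Agent.P067

open Finset

variable {H K M L : Type} [Group H] [Group K] [Group M] [Group L]

/-- A map of vertices acts on tuples. -/
def vmap (f : M → L) : SSet.Hom (simplexE M).toSSet (simplexE L).toSSet where
  app _ s := f ∘ s
  comm _ _ _ := rfl

lemma vmap_tcons (f : M → L) (q : ℕ) (a : M) (s : (simplexE M).obj q) :
    (vmap f).app (q + 1) (tcons a s) = tcons (f a) ((vmap f).app q s) := by
  funext k
  refine Fin.cases ?_ (fun k => ?_) k <;> rfl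

lemma vmap_consCh (f : M → L) (q : ℕ) (a : M) (z : (simplexE M).Ch q) :
    (vmap f).chain (q + 1) (consCh q a z) = consCh q (f a) ((vmap f).chain q z) := by
  induction z using Finsupp.induction_linear with
  | zero => simp
  | add x y hx hy => simp only [map_add, hx, hy]
  | single s c => rw [consCh_single, SSet.Hom.chain_single, SSet.Hom.chain_single, consCh_single,
      vmap_tcons]

/-- The tuple without its first vertex. -/
def ttail {q : ℕ} (s : (simplexE M).obj (q + 1)) : (simplexE M).obj q :=
  (fun k : Fin (q + 1) => s k.succ : Fin (q + 1) → M)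

/-- The first vertex and the rest. -/
lemma tcons_self {q : ℕ} (s : (simplexE M).obj (q + 1)) :
    tcons (s (0 : Fin (q + 2))) (ttail s) = s := by
  funext k
  refine Fin.cases ?_ (fun k => ?_) k <;> rfl

/-- The prism on one tuple. -/
noncomputable def prismFn (f g : M → L) :
    (q : ℕ) → (simplexE M).obj q → (simplexE L).Ch (q + 1)
  | 0, s => consCh 0 (f (s (0 : Fin 1))) ((vmap g).chain 0 (Finsupp.single s 1))
  | q + 1, s => consCh (q + 1) (f (s (0 : Fin (q + 2)))) ((vmap g).chain (q + 1) (Finsupp.single s 1)) +
      consCh (q + 1) (f (s (0 : Fin (q + 2)))) (prismFn f g q (ttail s))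

/-- The prism on chains. -/
noncomputable def prism (f g : M → L) (q : ℕ) : (simplexE M).Ch q →ₗ[ZMod 2] (simplexE L).Ch (q + 1) :=
  Finsupp.linearCombination (ZMod 2) (prismFn f g q)

lemma prism_single (f g : M → L) (q : ℕ) (s : (simplexE M).obj q) :
    prism f g q (Finsupp.single s 1) = prismFn f g q s := by
  simp [prism]

lemma prism_consCh (f g : M → L) (q : ℕ) (a : M) (z : (simplexE M).Ch q) :
    prism f g (q + 1) (consCh q a z) =
      consCh (q + 1) (f a) (consCh q (g a) ((vmap g).chain q z)) +
        consCh (q + 1) (f a) (prism f g q z) := by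
  induction z using Finsupp.induction_linear with
  | zero => simp
  | add x y hx hy => simp only [map_add, hx, hy]; abel
  | single s c =>
    rw [single_eq_smul]
    simp only [map_smul]
    rw [← smul_add, consCh_single, prism_single, prism_single]
    congr 1
    rw [prismFn, SSet.Hom.chain_single, SSet.Hom.chain_single, consCh_single, vmap_tcons, consCh_single, consCh_single]
    congr 2

/-- The prism identity in degree zero. -/
lemma bd_prism_zero (f g : M → L) (z : (simplexE M).Ch 0) :
    (simplexE L).bd 0 (prism f g 0 z) = (vmap f).chain 0 z + (vmap g).chain 0 z := by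
  induction z using Finsupp.induction_linear with
  | zero => simp
  | add x y hx hy => simp only [map_add, hx, hy]; abel
  | single s c =>
    rw [single_eq_smul]
    simp only [map_smul]
    rw [← smul_add, prism_single, prismFn, bd_consCh_zero, SSet.Hom.chain_single,
      SSet.Hom.chain_single, add_comm]
    congr 2
    have e : (vmap f).app 0 s = tpt (f (s (0 : Fin 1))) := by
      funext k
      fin_cases k
      rfl
    rw [e]
    simp [SSet.aug]

/-- The prism identity. -/
lemma bd_prism (f g : M → L) : ∀ (q : ℕ) (z : (simplexE M).Ch (q + 1)),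
    (simplexE L).bd (q + 1) (prism f g (q + 1) z) + prism f g q ((simplexE M).bd q z) =
      (vmap f).chain (q + 1) z + (vmap g).chain (q + 1) z := by
  intro q
  induction q with
  | zero =>
    intro z
    induction z using Finsupp.induction_linear with
    | zero => simp
    | add x y hx hy => simp only [map_add] at *; rw [add_add_add_comm, hx, hy]; abel
    | single s c =>
      rw [single_eq_smul]
      simp only [map_smul, ← smul_add]
      congr 1
      rw [← tcons_self s]
      obtain ⟨a, t, rfl⟩ : ∃ (a : M) (t : (simplexE M).obj 0), s = tcons a t :=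
        ⟨_, _, (tcons_self s).symm⟩
      have ec : Finsupp.single (tcons a t) (1 : ZMod 2) = consCh 0 a (Finsupp.single t 1) :=
        (consCh_single 0 a t 1).symm
      rw [tcons_self, ec, bd_consCh_zero, prism_consCh, map_add (prism f g 0), map_add, bd_consCh,
        bd_consCh, bd_consCh_zero, vmap_consCh, vmap_consCh, bd_prism_zero]
      have e1 : (simplexE M).aug (Finsupp.single t 1) = 1 := by simp [SSet.aug]
      have e2 : prism f g 0 (Finsupp.single (tpt a) 1) =
          consCh 0 (f a) (Finsupp.single (tpt (g a)) 1) := by
        rw [prism_single, prismFn, SSet.Hom.chain_single]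
        rfl
      rw [e1, e2, SSet.Hom.aug_chain, e1, map_add, map_add]
      rw [← sub_eq_zero, sub_eq_add']
      abel_nf
      simp [two_nsmul, add_self_zero, two_zsmul]
  | succ q ih =>
    intro z
    induction z using Finsupp.induction_linear with
    | zero => simp
    | add x y hx hy => simp only [map_add] at *; rw [add_add_add_comm, hx, hy]; abel
    | single s c =>
      rw [single_eq_smul]
      simp only [map_smul, ← smul_add]
      congr 1
      obtain ⟨a, t, rfl⟩ : ∃ (a : M) (t : (simplexE M).obj (q + 1)), s = tcons a t :=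
        ⟨_, _, (tcons_self s).symm⟩
      rw [show Finsupp.single (tcons a t) (1 : ZMod 2) = consCh (q + 1) a (Finsupp.single t 1) from
        (consCh_single _ _ _ _).symm, bd_consCh, prism_consCh, map_add (prism f g (q + 1)),
        prism_consCh, map_add, bd_consCh, bd_consCh, bd_consCh, vmap_consCh, vmap_consCh,
        ← SSet.Hom.chain_bd]
      have h := ih (Finsupp.single t 1)
      rw [← eq_sub_iff_add_eq, sub_eq_add'] at h
      rw [h]
      simp only [map_add]
      rw [← sub_eq_zero, sub_eq_add']
      abel_nf
      simp [two_nsmul, add_self_zero, two_zsmul]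

lemma consCh_tr (q : ℕ) (a m : L) (z : (simplexE L).Ch q) :
    consCh q (m * a) ((simplexE L).tr q m z) = (simplexE L).tr (q + 1) m (consCh q a z) := by
  induction z using Finsupp.induction_linear with
  | zero => simp
  | add x y hx hy => simp only [map_add, hx, hy]
  | single s c =>
    rw [GSSet.tr_single, consCh_single, consCh_single, GSSet.tr_single]
    congr 1
    funext k
    refine Fin.cases ?_ (fun k => ?_) k <;> rfl

variable {ι : H →* M} {χ : K →* L} {φ : H →* K}

/-- Equivariant maps of vertices give maps of orbit complexes. -/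
def qmap (f : M → L) (hf : ∀ h a, f (ι h * a) = χ (φ h) * f a) :
    SSet.Hom ((simplexE M).res ι).quot ((simplexE L).res χ).quot where
  app q := Quotient.map' ((vmap f).app q) (by
    rintro a b ⟨h, rfl⟩
    exact ⟨φ h, funext fun k => (hf h (a k)).symm⟩)
  comm q i := by
    rintro ⟨s⟩
    rfl

lemma qmap_proj (f : M → L) (hf : ∀ h a, f (ι h * a) = χ (φ h) * f a) (q : ℕ)
    (z : (simplexE M).Ch q) : (qmap f hf).chain q (((simplexE M).res ι).proj.chain q z) =
      ((simplexE L).res χ).proj.chain q ((vmap f).chain q z) := by
  induction z using Finsupp.induction_linear with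
  | zero =>
    rw [map_zero (((simplexE M).res ι).proj.chain q), map_zero, map_zero]
    exact (map_zero _).symm
  | add x y hx hy =>
    rw [map_add (((simplexE M).res ι).proj.chain q), map_add, map_add]
    exact (congrArg₂ (· + ·) hx hy).trans (map_add _ _ _).symm
  | single s c =>
    erw [SSet.Hom.chain_single, SSet.Hom.chain_single, SSet.Hom.chain_single, SSet.Hom.chain_single]
    rfl

lemma prismFn_equivariant (f g : M → L) (hf : ∀ h a, f (ι h * a) = χ (φ h) * f a)
    (hg : ∀ h a, g (ι h * a) = χ (φ h) * g a) (h : H) : ∀ (q : ℕ) (s : (simplexE M).obj q),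
    prismFn f g q ((simplexE M).act q (ι h) s) =
      (simplexE L).tr (q + 1) (χ (φ h)) (prismFn f g q s) := by
  have ev : ∀ q s, (vmap g).chain q (Finsupp.single ((simplexE M).act q (ι h) s) 1) =
      (simplexE L).tr q (χ (φ h)) ((vmap g).chain q (Finsupp.single s 1)) := fun q s => by
    rw [SSet.Hom.chain_single, SSet.Hom.chain_single, GSSet.tr_single]
    congr 1
    funext k
    exact hg h (s k)
  intro q
  induction q with
  | zero =>
    intro s
    show consCh 0 (f (ι h * s (0 : Fin 1))) _ = _
    rw [hf, ev, consCh_tr]
    rfl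
  | succ q ih =>
    intro s
    show consCh (q + 1) (f (ι h * s (0 : Fin (q + 2)))) _ +
      consCh (q + 1) (f (ι h * s (0 : Fin (q + 2))))
        (prismFn f g q ((simplexE M).act q (ι h) (ttail s))) = _
    rw [hf, ev, ih, consCh_tr, consCh_tr, ← map_add]
    rfl

/-- The prism on orbits. -/
noncomputable def qprism (f g : M → L) (hf : ∀ h a, f (ι h * a) = χ (φ h) * f a)
    (hg : ∀ h a, g (ι h * a) = χ (φ h) * g a) (q : ℕ) :
    ((simplexE M).res ι).quot.Ch q →ₗ[ZMod 2] ((simplexE L).res χ).quot.Ch (q + 1) :=
  Finsupp.linearCombination (ZMod 2) (Quotient.lift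
    (fun s => ((simplexE L).res χ).proj.chain (q + 1) (prismFn f g q s)) (by
      rintro a b ⟨h, rfl⟩
      show _ = ((simplexE L).res χ).proj.chain (q + 1) (prismFn f g q ((simplexE M).act q (ι h) a))
      rw [prismFn_equivariant f g hf hg]
      exact (((simplexE L).res χ).proj_tr (q + 1) (φ h) _).symm))

/-- Two equivariant maps of vertices agree on homology. -/
theorem qmap_homotopic (f g : M → L) (hf : ∀ h a, f (ι h * a) = χ (φ h) * f a)
    (hg : ∀ h a, g (ι h * a) = χ (φ h) * g a) (q : ℕ) (z : ((simplexE M).res ι).quot.Ch q)
    (hz : ((simplexE M).res ι).quot.IsCycle q z) :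
    (qmap f hf).chain q z + (qmap g hg).chain q z ∈ ((simplexE L).res χ).quot.bdry q := by
  have key : ∀ (q : ℕ) (y : (simplexE M).Ch q), qprism f g hf hg q
      (((simplexE M).res ι).proj.chain q y) =
        ((simplexE L).res χ).proj.chain (q + 1) (prism f g q y) := fun q y => by
    induction y using Finsupp.induction_linear with
    | zero =>
      rw [map_zero (prism f g q)]
      exact (congrArg _ (map_zero _)).trans ((map_zero _).trans (map_zero _).symm)
    | add x y hx hy =>
      rw [map_add (prism f g q)]
      exact ((congrArg _ (map_add _ _ _)).trans (map_add _ _ _)).trans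
        ((congrArg₂ (· + ·) hx hy).trans (map_add _ _ _).symm)
    | single s c =>
      rw [single_eq_smul, map_smul (prism f g q), prism_single]
      refine (congrArg _ (map_smul _ _ _)).trans ((map_smul _ _ _).trans ?_)
      rw [map_smul]
      congr 1
      erw [SSet.Hom.chain_single]
      exact (Finsupp.linearCombination_single _ _ _).trans (one_smul _ _)
  obtain ⟨y, rfl⟩ : ∃ y, ((simplexE M).res ι).proj.chain q y = z :=
    ⟨_, GSSet.proj_liftCh _ q z⟩
  refine ⟨qprism f g hf hg q (((simplexE M).res ι).proj.chain q y), ?_⟩
  refine Eq.trans ((congrArg _ (key q y)).trans (SSet.Hom.chain_bd _ q _).symm) ?_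
  refine Eq.trans ?_ (congrArg₂ (· + ·) (qmap_proj f hf q y) (qmap_proj g hg q y)).symm
  refine Eq.trans ?_ (map_add _ _ _)
  cases q with
  | zero => exact congrArg _ (bd_prism_zero f g y)
  | succ q =>
    have h1 := (SSet.Hom.chain_bd ((simplexE M).res ι).proj q y).trans hz
    have h2 : ((simplexE L).res χ).proj.chain (q + 1) (prism f g q ((simplexE M).bd q y)) = 0 :=
      (key q _).symm.trans ((congrArg _ h1).trans (map_zero _))
    refine Eq.trans ?_ (congrArg _ (bd_prism f g q y))
    exact (((map_add _ _ _).trans (congrArg₂ (· + ·) rfl h2)).trans (add_zero _)).symm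

end Vale.Agent.P067
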