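import Mathlib

/-!
# P067: semisimplicial sets and their chains modulo two
-/

namespace Vale.Agent.P067

open Finset

/-- Twice anything vanishes modulo two. -/
lemma add_self_zero {V : Type*} [AddCommGroup V] [Module (ZMod 2) V] (x : V) : x + x = 0 := by
  rw [← two_smul (ZMod 2), show (2 : ZMod 2) = 0 from rfl, zero_smul]

lemma sub_eq_add' {V : Type*} [AddCommGroup V] [Module (ZMod 2) V] (x y : V) : x - y = x + y := by
  rw [sub_eq_iff_eq_add, add_assoc, add_self_zero, add_zero]

lemma eq_of_add_zero {V : Type*} [AddCommGroup V] [Module (ZMod 2) V] {x y : V} (h : x + y = 0) :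
    x = y := by rw [← sub_eq_zero, sub_eq_add']; exact h

/-- A semisimplicial set. -/
structure SSet where
  obj : ℕ → Type
  face : (q : ℕ) → Fin (q + 2) → obj (q + 1) → obj q
  face_face : ∀ (q : ℕ) (i j : Fin (q + 2)), i ≤ j → ∀ s : obj (q + 2),
    face q i (face (q + 1) j.succ s) = face q j (face (q + 1) i.castSucc s)

lemma single_eq_smul {X : Type*} (s : X) (c : ZMod 2) :
    Finsupp.single s c = c • Finsupp.single s (1 : ZMod 2) := by simp

namespace SSet

variable (S T U : SSet)

/-- Chains modulo two. -/
abbrev Ch (q : ℕ) : Type := S.obj q →₀ ZMod 2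

/-- The boundary. -/
noncomputable def bd (q : ℕ) : S.Ch (q + 1) →ₗ[ZMod 2] S.Ch q :=
  ∑ i : Fin (q + 2), Finsupp.lmapDomain (ZMod 2) (ZMod 2) (S.face q i)

/-- The augmentation. -/
noncomputable def aug : S.Ch 0 →ₗ[ZMod 2] ZMod 2 :=
  Finsupp.linearCombination (ZMod 2) fun _ => (1 : ZMod 2)

lemma bd_single (q : ℕ) (s : S.obj (q + 1)) (c : ZMod 2) :
    S.bd q (Finsupp.single s c) = ∑ i, Finsupp.single (S.face q i s) c := by
  simp [bd]

lemma bd_bd (q : ℕ) (x : S.Ch (q + 2)) : S.bd q (S.bd (q + 1) x) = 0 := by
  induction x using Finsupp.induction_linear with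
  | zero => simp
  | add a b ha hb => simp [ha, hb]
  | single s c =>
    rw [bd_single, map_sum]
    simp only [bd_single]
    rw [← Finset.sum_product' (f := fun (j : Fin (q + 3)) (i : Fin (q + 2)) =>
      Finsupp.single (S.face q i (S.face (q + 1) j s)) c)]
    refine Finset.sum_involution
      (fun p _ => if h : p.2.val < p.1.val then (p.2.castSucc, ⟨p.1.val - 1, by omega⟩)
        else (p.2.succ, ⟨p.1.val, by omega⟩)) ?_ ?_ (fun _ _ => Finset.mem_univ _) ?_
    · rintro ⟨j, i⟩ -
      simp only
      split_ifs with h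
      · have e : (⟨j.val - 1, by omega⟩ : Fin (q + 2)).succ = j := by ext; simp; omega
        have := S.face_face q i ⟨j.val - 1, by omega⟩ (by simp [Fin.le_def]; omega) s
        rw [e] at this
        rw [this, add_self_zero]
      · have e : (⟨j.val, by omega⟩ : Fin (q + 2)).castSucc = j := by ext; simp
        have := S.face_face q ⟨j.val, by omega⟩ i (by simp [Fin.le_def]; omega) s
        rw [e] at this
        rw [this, add_self_zero]
    · rintro ⟨j, i⟩ - -
      simp only
      split_ifs with h <;> intro he <;>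
        simp only [Prod.mk.injEq, Fin.ext_iff, Fin.val_castSucc, Fin.val_succ] at he <;> omega
    · rintro ⟨j, i⟩ -
      simp only
      by_cases h : i.val < j.val
      · simp only [dif_pos h, Fin.val_castSucc, show ¬ (j.val - 1 < i.val) by omega, dite_false]
        ext <;> simp; omega
      · simp only [dif_neg h, Fin.val_succ, show j.val < i.val + 1 by omega, dite_true]
        ext <;> simp

/-- Every cycle in degree `q` is a boundary; in degree `0` for the augmented complex. -/
def Exact : ℕ → Prop
  | 0 => ∀ z : S.Ch 0, S.aug z = 0 → ∃ w, S.bd 0 w = z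
  | q + 1 => ∀ z : S.Ch (q + 1), S.bd q z = 0 → ∃ w, S.bd (q + 1) w = z

/-- A map of semisimplicial sets. -/
structure Hom where
  app : ∀ q, S.obj q → T.obj q
  comm : ∀ q i s, app q (S.face q i s) = T.face q i (app (q + 1) s)

variable {S T U}

/-- The induced map of chains. -/
noncomputable def Hom.chain (f : Hom S T) (q : ℕ) : S.Ch q →ₗ[ZMod 2] T.Ch q :=
  Finsupp.lmapDomain (ZMod 2) (ZMod 2) (f.app q)

lemma Hom.chain_bd (f : Hom S T) (q : ℕ) (x : S.Ch (q + 1)) :
    f.chain q (S.bd q x) = T.bd q (f.chain (q + 1) x) := by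
  induction x using Finsupp.induction_linear with
  | zero => simp
  | add a b ha hb => simp [ha, hb]
  | single s c => simp [chain, bd_single, f.comm]

lemma Hom.aug_chain (f : Hom S T) (x : S.Ch 0) : T.aug (f.chain 0 x) = S.aug x := by
  induction x using Finsupp.induction_linear with
  | zero => simp
  | add a b ha hb => simp [ha, hb]
  | single s c => simp [chain, aug]

end SSet

/-- A semisimplicial set with an action of a group. -/
structure GSSet (G : Type) [Group G] extends SSet where
  act : (q : ℕ) → G →* Equiv.Perm (obj q)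
  act_face : ∀ q i g s, face q i (act (q + 1) g s) = act q g (face q i s)

namespace GSSet

variable {G : Type} [Group G] (S : GSSet G)

/-- The orbit relation. -/
def orbRel (q : ℕ) : Setoid (S.obj q) where
  r a b := ∃ g, S.act q g a = b
  iseqv := by
    refine ⟨fun a => ⟨1, by simp⟩, ?_, ?_⟩
    · rintro a b ⟨g, rfl⟩
      exact ⟨g⁻¹, by simp⟩
    · rintro a b c ⟨g, rfl⟩ ⟨h, rfl⟩
      exact ⟨h * g, by simp⟩

/-- The orbit semisimplicial set. -/
abbrev quot : SSet where
  obj q := Quotient (S.orbRel q)
  face q i := Quotient.map' (S.face q i) (by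
    rintro a b ⟨g, rfl⟩
    exact ⟨g, (S.act_face q i g a).symm⟩)
  face_face q i j h := by
    rintro ⟨s⟩
    exact congrArg (Quotient.mk _) (S.face_face q i j h s)

/-- The projection to the orbits. -/
def proj : SSet.Hom S.toSSet S.quot where
  app q := Quotient.mk (S.orbRel q)
  comm _ _ _ := rfl

/-- The action is free. -/
def Free : Prop := ∀ q g (s : S.obj q), S.act q g s = s → g = 1

/-- The translation by a group element on chains. -/
noncomputable def tr (q : ℕ) (g : G) : S.Ch q →ₗ[ZMod 2] S.Ch q :=
  Finsupp.lmapDomain (ZMod 2) (ZMod 2) (S.act q g)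

end GSSet

end Vale.Agent.P067
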