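import Vale.Agent.P067.Alg.Double

/-!
# P067: homology of a group from an acyclic complex with an action
-/

namespace Vale.Agent.P067

open Finset

variable {G : Type} [Group G]

/-- The orbit complex of tuples is exact in degree zero. -/
theorem GH_exact_zero : (GH G).Exact 0 := by
  intro z hz
  have : Subsingleton ((GH G).obj 0) := ⟨fun a b => by
    induction a using Quotient.inductionOn' with
    | h s =>
      induction b using Quotient.inductionOn' with
      | h t =>
        refine Quotient.sound ⟨t (0 : Fin 1) * (s (0 : Fin 1))⁻¹, funext fun k => ?_⟩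
        show t (0 : Fin 1) * (s (0 : Fin 1))⁻¹ * s k = t k
        rw [show k = (0 : Fin 1) from Fin.fin_one_eq_zero k, inv_mul_cancel_right]⟩
  let a : (GH G).obj 0 := Quotient.mk'' (tpt 1)
  have e : z = Finsupp.single a (z a) := by
    ext b
    rw [Subsingleton.elim b a, Finsupp.single_eq_same]
  refine ⟨0, ?_⟩
  rw [map_zero, e]
  have h : z a = 0 := by
    have := hz
    rw [e] at this
    simpa [SSet.aug] using this
  rw [h, Finsupp.single_zero]

lemma pstab_simplexE (q : ℕ) (s : (simplexE G).obj q) (g : G)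
    (hg : g ∈ pstab ((simplexE G).act q) s) : g = 1 := by
  have h : g * s (0 : Fin (q + 1)) = s (0 : Fin (q + 1)) := congrFun hg (0 : Fin (q + 1))
  simpa using h

lemma locOdd_of_trivial {H : Subgroup G} (h : ∀ g ∈ H, g = 1) : LocOdd H := by
  have : Subsingleton H := ⟨fun a b => Subtype.ext ((h a a.2).trans (h b b.2).symm)⟩
  refine LocOdd.of_finite ?_
  rw [Nat.card_of_subsingleton (1 : H)]
  exact odd_one

variable (W : GSSet G)

lemma row_hyp {p : ℕ} (hp : W.Exact p) (q : ℕ) (s : (simplexE G).obj q) :
    (W.res (pstab ((simplexE G).act q) s).subtype).quot.Exact p :=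
  (W.res _).exact_quot_of_locOdd (locOdd_of_trivial (pstab_simplexE q s)) hp

/-- Cycles of a group come from the stabilisers of vertices. -/
theorem mem_vertexPart [Nonempty (W.obj 0)] {i : ℕ} (hi : 1 ≤ i) (hW : ∀ p < i, W.Exact p)
    (hA : W.quot.Exact i)
    (hstab : ∀ q p, 1 ≤ q → q < i → p + q = i → ∀ w, (GH (W.stab p w)).Exact q)
    (z : (GH G).Ch i) (hz : (GH G).IsCycle i z) :
    z ∈ W.vertexPart i ⊔ (GH G).bdry i := by
  obtain ⟨i, rfl⟩ : ∃ j, i = j + 1 := ⟨i - 1, by omega⟩
  have hne : Nonempty ((simplexE G).obj 0) := ⟨tpt 1⟩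
  obtain ⟨x, hx, rfl⟩ := Double.chase (simplexE G) W (i := i)
    (fun q p h s => row_hyp W (hW p (by omega)) q s)
    (fun q p h h' t => res_exact_of_GH_exact _ (by
      rcases q.eq_zero_or_pos with rfl | hq
      · exact GH_exact_zero
      · exact hstab q p hq h' (by omega) t))
    hA z hz
  let φ := Double.colFib (simplexE G) W 0
  obtain ⟨F, hF⟩ := φ.decompose (i + 1) x
  rw [hF F subset_rfl, map_sum]
  refine Submodule.sum_mem _ fun o _ => ?_
  set c := φ.comp o.out (i + 1) x with hc
  clear_value c
  have hcyc : ((simplexE G).res (pstab (W.act 0) o.out).subtype).quot.IsCycle (i + 1) c := by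
    subst hc
    show _ = (0 : ((simplexE G).res (pstab (W.act 0) o.out).subtype).quot.Ch i)
    rw [← φ.comp_bd]
    exact (congrArg _ hx).trans (map_zero _)
  let P : SSet.Hom ((simplexE G).res (pstab (W.act 0) o.out).subtype).quot (GH G) :=
    (simplexE G).toQuot (pstab (W.act 0) o.out)
  have e1 : ∀ y, Double.eT (simplexE G) W (i + 1) ((φ.fibre o.out).chain (i + 1) y) =
      P.chain (i + 1) y := fun y => by
    induction y using Finsupp.induction_linear with
    | zero => simp
    | add a b ha hb => simp only [map_add, ha, hb]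
    | single a d =>
      induction a using Quotient.inductionOn' with
      | h s =>
        rw [SSet.Hom.chain_single, SSet.Hom.chain_single]
        exact Double.eT_single (simplexE G) W (i + 1) (s, o.out) d
  rw [e1]
  have h1 := P.mem_bdry (incl_retr (pstab (W.act 0) o.out) (i + 1) c hcyc)
  rw [map_add] at h1
  have h2 : P.chain (i + 1) ((inclQ (pstab (W.act 0) o.out)).chain (i + 1) ((retrQ (pstab (W.act 0) o.out)).chain (i + 1) c)) ∈
      W.vertexPart (i + 1) := by
    refine Submodule.subset_span ⟨o.out, (retrQ (pstab (W.act 0) o.out)).chain (i + 1) c, (retrQ (pstab (W.act 0) o.out)).isCycle hcyc, ?_⟩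
    refine (SSet.Hom.chain_comp P (inclQ (pstab (W.act 0) o.out)) _ _).trans (SSet.Hom.chain_congr (fun s => ?_) _)
    induction s using Quotient.inductionOn' with
    | h s => rfl
  have := Submodule.add_mem _ (Submodule.mem_sup_left (T := (GH G).bdry (i + 1)) h2)
    (Submodule.mem_sup_right (S := W.vertexPart (i + 1)) h1)
  rwa [← add_assoc, add_comm (P.chain (i + 1) ((inclQ (pstab (W.act 0) o.out)).chain _ _)), add_assoc, add_self_zero,
    add_zero] at this

/-- The stabilisers without homology give a group without homology. -/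
theorem exact_of_stabilisers [Nonempty (W.obj 0)] {i : ℕ} (hi : 1 ≤ i) (hW : ∀ p < i, W.Exact p)
    (hA : W.quot.Exact i)
    (hstab : ∀ q p, 1 ≤ q → q ≤ i → p + q = i → ∀ w, (GH (W.stab p w)).Exact q) :
    (GH G).Exact i := by
  rw [SSet.exact_iff]
  intro z hz
  have h := mem_vertexPart W hi hW hA (fun q p h1 h2 => hstab q p h1 h2.le) z hz
  refine SetLike.le_def.1 (sup_le (Submodule.span_le.2 ?_) le_rfl) h
  rintro _ ⟨w, c, hc, rfl⟩
  exact (hmap _).mem_bdry (((SSet.exact_iff _ _).1 (hstab i 0 hi le_rfl (by omega) w)) c hc)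

/-- The orbits of a free acyclic complex have no homology where the group has none. -/
theorem exact_quot_of_free [Nonempty (W.obj 0)] (hfree : W.Free) {i : ℕ} (hi : 1 ≤ i)
    (hW : ∀ p ≤ i, W.Exact p) (hG : (GH G).Exact i) : W.quot.Exact i := by
  obtain ⟨i, rfl⟩ : ∃ j, i = j + 1 := ⟨i - 1, by omega⟩
  have hne : Nonempty ((simplexE G).obj 0) := ⟨tpt 1⟩
  have hrow : ∀ q p, ∀ s, ((simplexE G).res (pstab (W.act q) s).subtype).quot.Exact p :=
    fun q p s => ((simplexE G).res _).exact_quot_of_locOdd
      (locOdd_of_trivial fun g hg => hfree q g s hg) (simplexE_exact p)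
  have hcol : ∀ q p, q ≤ i + 1 → ∀ t, (W.res (pstab ((simplexE G).act p) t).subtype).quot.Exact q :=
    fun q p h t => row_hyp W (hW q h) p t
  intro z hz
  obtain ⟨x, hx, rfl⟩ := Double.chase W (simplexE G) (i := i) (fun q p _ s => hrow q p s)
    (fun q p _ h t => hcol q p h.le t) hG z hz
  obtain ⟨v, hv⟩ := Double.col_exact W (simplexE G) (hcol (i + 1) 0 le_rfl) x hx
  exact ⟨Double.eT W (simplexE G) (i + 2) v, by rw [← Double.eT_dS, hv]⟩

end Vale.Agent.P067
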