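import Vale.Agent.P067.Alg.Basic

/-!
# P067: averaging over odd groups, and the duality with cochains
-/

namespace Vale.Agent.P067

open Finset

lemma natCast_smul_odd {V : Type*} [AddCommGroup V] [Module (ZMod 2) V] {n : ℕ} (hn : Odd n)
    (x : V) : n • x = x := by
  obtain ⟨m, rfl⟩ := hn
  rw [succ_nsmul, mul_nsmul, two_nsmul, add_self_zero, smul_zero, zero_add]

namespace SSet

variable (S : SSet)

lemma aug_bd (x : S.Ch 1) : S.aug (S.bd 0 x) = 0 := by
  induction x using Finsupp.induction_linear with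
  | zero => simp
  | add a b ha hb => simp [ha, hb]
  | single s c =>
    rw [bd_single, map_sum]
    simp only [aug, Finsupp.linearCombination_single, smul_eq_mul, mul_one]
    rw [Fin.sum_univ_two]
    exact add_self_zero c

lemma isCycle_bd : ∀ (q : ℕ) (w : S.Ch (q + 1)), S.IsCycle q (S.bd q w)
  | 0, w => S.aug_bd w
  | q + 1, w => S.bd_bd q w

lemma isCycle_add : ∀ {q : ℕ} {x y : S.Ch q}, S.IsCycle q x → S.IsCycle q y → S.IsCycle q (x + y)
  | 0, x, y, hx, hy => by simp_all [IsCycle]
  | q + 1, x, y, hx, hy => by simp_all [IsCycle]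

variable {S} {T : SSet}

@[simp] lemma Hom.chain_single (f : Hom S T) (q : ℕ) (s : S.obj q) (c : ZMod 2) :
    f.chain q (Finsupp.single s c) = Finsupp.single (f.app q s) c := by simp [Hom.chain]

lemma Hom.isCycle (f : Hom S T) : ∀ {q : ℕ} {z : S.Ch q}, S.IsCycle q z → T.IsCycle q (f.chain q z)
  | 0, z, h => by simpa [IsCycle, f.aug_chain] using h
  | q + 1, z, h => by
    show T.bd q (f.chain (q + 1) z) = 0
    rw [← f.chain_bd, show S.bd q z = 0 from h, map_zero]

lemma Hom.mem_bdry (f : Hom S T) {q : ℕ} {z : S.Ch q} (h : z ∈ S.bdry q) :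
    f.chain q z ∈ T.bdry q := by
  obtain ⟨w, rfl⟩ := h
  rw [f.chain_bd]
  exact T.bd_mem q _

/-- The cohomological form of exactness. -/
lemma coexact_of_exact {q : ℕ} (hS : S.Exact (q + 1)) (f : S.Ch (q + 1) →ₗ[ZMod 2] ZMod 2)
    (hf : ∀ w, f (S.bd (q + 1) w) = 0) :
    ∃ g : S.Ch q →ₗ[ZMod 2] ZMod 2, ∀ x, f x = g (S.bd q x) := by
  have hk : LinearMap.ker (S.bd q) ≤ LinearMap.ker f := fun z hz => by
    obtain ⟨w, rfl⟩ := hS z (LinearMap.mem_ker.1 hz)
    exact hf w
  have hm : f ∈ (LinearMap.ker (S.bd q)).dualAnnihilator :=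
    (Submodule.mem_dualAnnihilator _).2 fun w hw => LinearMap.mem_ker.1 (hk hw)
  rw [← LinearMap.range_dualMap_eq_dualAnnihilator_ker] at hm
  obtain ⟨g, rfl⟩ := hm
  exact ⟨g, fun _ => rfl⟩

/-- In degree zero cocycles are constant. -/
lemma coexact_zero (hS : S.Exact 0) (f : S.Ch 0 →ₗ[ZMod 2] ZMod 2)
    (hf : ∀ w, f (S.bd 0 w) = 0) (s t : S.obj 0) :
    f (Finsupp.single s 1) = f (Finsupp.single t 1) := by
  have h : S.aug (Finsupp.single s 1 + Finsupp.single t 1) = 0 := by simp [aug, add_self_zero]
  obtain ⟨w, hw⟩ := hS _ h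
  have := hf w
  rw [hw, map_add] at this
  exact eq_of_add_zero this

end SSet

namespace GSSet

variable {G : Type} [Group G] (S : GSSet G)

lemma tr_single (q : ℕ) (g : G) (s : S.obj q) (c : ZMod 2) :
    S.tr q g (Finsupp.single s c) = Finsupp.single (S.act q g s) c := by simp [tr]

lemma tr_bd (q : ℕ) (g : G) (x : S.Ch (q + 1)) : S.tr q g (S.bd q x) = S.bd q (S.tr (q + 1) g x) := by
  induction x using Finsupp.induction_linear with
  | zero => simp
  | add a b ha hb => simp [ha, hb]
  | single s c => simp [tr, SSet.bd_single, S.act_face]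

lemma aug_tr (g : G) (x : S.Ch 0) : S.aug (S.tr 0 g x) = S.aug x := by
  induction x using Finsupp.induction_linear with
  | zero => simp
  | add a b ha hb => simp [ha, hb]
  | single s c => simp [tr, SSet.aug]

lemma mk_act (q : ℕ) (g : G) (s : S.obj q) :
    Quotient.mk (S.orbRel q) (S.act q g s) = Quotient.mk (S.orbRel q) s :=
  Quotient.sound ⟨g⁻¹, by simp⟩

lemma proj_tr (q : ℕ) (g : G) (x : S.Ch q) :
    S.proj.chain q (S.tr q g x) = S.proj.chain q x := by
  induction x using Finsupp.induction_linear with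
  | zero => simp
  | add a b ha hb => simp [ha, hb]
  | single s c =>
    simp only [tr_single, SSet.Hom.chain_single]
    exact congrArg (Finsupp.single · c) (S.mk_act q g s)

/-- A chosen lift of a chain of orbits. -/
noncomputable def liftCh (q : ℕ) : S.quot.Ch q →ₗ[ZMod 2] S.Ch q :=
  Finsupp.lmapDomain (ZMod 2) (ZMod 2) Quotient.out

lemma liftCh_single (q : ℕ) (a : S.quot.obj q) (c : ZMod 2) :
    S.liftCh q (Finsupp.single a c) = Finsupp.single (Quotient.out a) c := by
  unfold liftCh
  exact Finsupp.mapDomain_single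

lemma proj_liftCh (q : ℕ) (z : S.quot.Ch q) : S.proj.chain q (S.liftCh q z) = z := by
  induction z using Finsupp.induction_linear with
  | zero => simp
  | add a b ha hb => simp [ha, hb]
  | single s c =>
    rw [liftCh_single, SSet.Hom.chain_single]
    exact congrArg (Finsupp.single · c) (Quotient.out_eq s)

/-- A chain killed by the projection is killed by averaging over a large finite subgroup. -/
lemma exists_kill [DecidableEq G] (q : ℕ) (x : S.Ch q) : ∃ F : Finset G, ∀ (H : Subgroup G)
    [Fintype H], (∀ g ∈ F, g ∈ H) →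
      ∑ h : H, S.tr q (h : G) x = ∑ h : H, S.tr q (h : G) (S.liftCh q (S.proj.chain q x)) := by
  induction x using Finsupp.induction_linear with
  | zero => exact ⟨∅, fun H _ _ => by simp⟩
  | add a b ha hb =>
    obtain ⟨A, hA⟩ := ha
    obtain ⟨B, hB⟩ := hb
    refine ⟨A ∪ B, fun H _ hH => ?_⟩
    simp only [map_add, sum_add_distrib, hA H fun g hg => hH g (mem_union_left _ hg),
      hB H fun g hg => hH g (mem_union_right _ hg)]
  | single s c =>
    obtain ⟨g, hg⟩ := Quotient.exact (s := S.orbRel q)
      (Quotient.out_eq (Quotient.mk (S.orbRel q) s)).symm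
    refine ⟨{g}, fun H _ hH => ?_⟩
    have e : S.liftCh q (S.proj.chain q (Finsupp.single s c)) =
        Finsupp.single (S.act q g s) c := by
      rw [SSet.Hom.chain_single, liftCh_single, hg]
      rfl
    rw [e]
    simp only [tr_single]
    symm
    refine Fintype.sum_equiv (Equiv.mulRight ⟨g, hH g (mem_singleton_self g)⟩) _ _ fun h => ?_
    simp [map_mul]

lemma sum_tr_exact {q : ℕ} (hS : S.Exact q) (H : Subgroup G) [Fintype H] (z : S.Ch q)
    (hz : match q, z with
      | 0, z => S.aug z = 0
      | q + 1, z => ∑ h : H, S.tr q (h : G) (S.bd q z) = 0) :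
    ∑ h : H, S.tr q (h : G) z ∈ S.bdry q := by
  refine (S.toSSet.exact_iff q).1 hS _ ?_
  cases q with
  | zero => simp only [SSet.IsCycle, map_sum, aug_tr, hz, sum_const_zero]
  | succ q => simpa [SSet.IsCycle, map_sum, ← tr_bd] using hz

/-- Averaging: orbits of a locally odd group preserve exactness. -/
theorem exact_quot_of_locOdd (hG : LocOdd G) {q : ℕ} (hS : S.Exact q) : S.quot.Exact q := by
  classical
  rw [SSet.exact_iff]
  intro z hz
  obtain ⟨F, hF⟩ : ∃ F : Finset G, ∀ (H : Subgroup G) [Fintype H], (∀ g ∈ F, g ∈ H) →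
      ∑ h : H, S.tr q (h : G) (S.liftCh q z) ∈ S.bdry q := by
    cases q with
    | zero =>
      refine ⟨∅, fun H _ _ => sum_tr_exact S hS H _ ?_⟩
      show S.aug (S.liftCh 0 z) = 0
      rw [← S.proj.aug_chain, proj_liftCh]
      exact hz
    | succ q =>
      obtain ⟨F, hF⟩ := S.exists_kill q (S.bd q (S.liftCh (q + 1) z))
      refine ⟨F, fun H _ hH => sum_tr_exact S hS H _ ?_⟩
      show ∑ h : H, S.tr q (h : G) (S.bd q (S.liftCh (q + 1) z)) = 0
      rw [hF H hH, S.proj.chain_bd, proj_liftCh, show S.quot.bd q z = 0 from hz]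
      simp
  obtain ⟨H, hH, hfin, hodd⟩ := hG F
  let _ : Fintype H := Fintype.ofFinite H
  have := S.proj.mem_bdry (hF H hH)
  simp only [map_sum, proj_tr, proj_liftCh, sum_const, card_univ] at this
  rwa [natCast_smul_odd (by rwa [← Nat.card_eq_fintype_card])] at this

end GSSet

section simplex

variable {G : Type} [Group G]

/-- Adjoin a first vertex. -/
def tcons {q : ℕ} (a : G) (s : (simplexE G).obj q) : (simplexE G).obj (q + 1) :=
  (Fin.cons a s : Fin (q + 2) → G)

/-- A single vertex. -/
def tpt (a : G) : (simplexE G).obj 0 := (fun _ => a : Fin 1 → G)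

/-- Adjoin a first vertex, on chains. -/
noncomputable def consCh (q : ℕ) (a : G) : (simplexE G).Ch q →ₗ[ZMod 2] (simplexE G).Ch (q + 1) :=
  Finsupp.lmapDomain (ZMod 2) (ZMod 2) (tcons a)

lemma consCh_single (q : ℕ) (a : G) (s : (simplexE G).obj q) (c : ZMod 2) :
    consCh q a (Finsupp.single s c) = Finsupp.single (tcons a s) c := by
  unfold consCh
  exact Finsupp.mapDomain_single

lemma face_tcons_zero (q : ℕ) (a : G) (s : (simplexE G).obj q) :
    (simplexE G).face q 0 (tcons a s) = s := by
  funext k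
  show (Fin.cons a s : Fin (q + 2) → G) ((0 : Fin (q + 2)).succAbove k) = s k
  rw [Fin.succAbove_zero]
  rfl

lemma face_tcons_succ (q : ℕ) (a : G) (s : (simplexE G).obj (q + 1)) (i : Fin (q + 2)) :
    (simplexE G).face (q + 1) i.succ (tcons a s) = tcons a ((simplexE G).face q i s) := by
  funext k
  show (Fin.cons a s : Fin (q + 3) → G) (i.succ.succAbove k) =
    (Fin.cons a (fun m => s (i.succAbove m)) : Fin (q + 2) → G) k
  refine Fin.cases ?_ (fun k => ?_) k
  · rw [Fin.succ_succAbove_zero]; rfl
  · rw [Fin.succ_succAbove_succ]; rfl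

lemma bd_consCh (q : ℕ) (a : G) (z : (simplexE G).Ch (q + 1)) :
    (simplexE G).bd (q + 1) (consCh (q + 1) a z) = z + consCh q a ((simplexE G).bd q z) := by
  induction z using Finsupp.induction_linear with
  | zero => simp
  | add x y hx hy => simp only [map_add, hx, hy]; abel
  | single s c =>
    rw [consCh_single, SSet.bd_single, SSet.bd_single, Fin.sum_univ_succ, map_sum, face_tcons_zero]
    simp only [face_tcons_succ, consCh_single]

lemma bd_consCh_zero (a : G) (z : (simplexE G).Ch 0) :
    (simplexE G).bd 0 (consCh 0 a z) =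
      z + Finsupp.single (tpt a) ((simplexE G).aug z) := by
  induction z using Finsupp.induction_linear with
  | zero => simp
  | add x y hx hy => simp only [map_add, hx, hy, Finsupp.single_add]; abel
  | single s c =>
    rw [consCh_single, SSet.bd_single, Fin.sum_univ_two, face_tcons_zero]
    congr 1
    have e : (simplexE G).face 0 1 (tcons a s) = tpt a := by
      funext k
      fin_cases k
      rfl
    rw [e]
    simp [SSet.aug]

/-- The full simplex is acyclic. -/
theorem simplexE_exact (q : ℕ) : (simplexE G).Exact q := by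
  cases q with
  | zero =>
    intro z hz
    exact ⟨consCh 0 1 z, by rw [bd_consCh_zero, hz, Finsupp.single_zero]; exact add_zero z⟩
  | succ q =>
    intro z hz
    exact ⟨consCh (q + 1) 1 z, by rw [bd_consCh, hz, map_zero]; exact add_zero z⟩

/-- A locally odd group has no homology modulo two. -/
theorem GH_exact_of_locOdd (hG : LocOdd G) (q : ℕ) : (GH G).Exact q :=
  (simplexE G).exact_quot_of_locOdd hG (simplexE_exact q)

end simplex

end Vale.Agent.P067
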